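import Vale.Agent.P134I.Bd

/-!
# P134Q: the bounds on the multipliers
-/

open Finset

noncomputable section

namespace Vale.Agent.P134Q

theorem bdd01 {f : ℝ → ℝ} (hf : Continuous f) : ∃ C, 0 ≤ C ∧ ∀ x, 0 ≤ x → x ≤ 1 → f x ≤ C := by
  obtain ⟨C, hC⟩ := (isCompact_Icc (a := (0 : ℝ)) (b := 1)).exists_bound_of_continuousOn
    hf.continuousOn
  exact ⟨max C 0, le_max_right _ _, fun x h0 h1 =>
    ((le_abs_self _).trans (hC x ⟨h0, h1⟩)).trans (le_max_left _ _)⟩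

@[fun_prop] theorem Cub.cont_v (p : Cub) : Continuous p.v := by
  unfold Cub.v
  fun_prop

@[fun_prop] theorem Cub.cont_dv (p : Cub) : Continuous p.dv := by
  unfold Cub.dv
  fun_prop

theorem cs5 (a b c d e x y z u v : ℝ) : (a * x + b * y + c * z + d * u + e * v) ^ 2
    ≤ (a ^ 2 + b ^ 2 + c ^ 2 + d ^ 2 + e ^ 2) * (x ^ 2 + y ^ 2 + z ^ 2 + u ^ 2 + v ^ 2) := by
  have := sum_mul_sq_le_sq_mul_sq univ ![a, b, c, d, e] ![x, y, z, u, v]
  simpa [Fin.sum_univ_succ, add_assoc] using this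

namespace Ten

variable {ι : Type} [Fintype ι] (X : Ten ι) (P : Par)

theorem dot_sq (u v : ι → ℝ) : (∑ i, u i * v i) ^ 2 ≤ (∑ i, u i * u i) * ∑ i, v i * v i := by
  simpa only [sq] using sum_mul_sq_le_sq_mul_sq univ u v

theorem mat_sq (F : ι → ι → ℝ) (v : ι → ℝ) : ∑ i, (∑ j, F i j * v j) * (∑ j, F i j * v j)
    ≤ (∑ i, ∑ j, F i j * F i j) * ∑ i, v i * v i := by
  rw [sum_mul]
  exact sum_le_sum fun i _ => by rw [← sq]; exact dot_sq _ _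

theorem YY_le : ∑ i, X.Y i * X.Y i ≤ X.s * X.TT := by
  rw [TT, mul_sum]
  refine sum_le_sum fun k _ => ?_
  have := sum_mul_sq_le_sq_mul_sq univ (fun q : ι × ι => X.A q.1 q.2) fun q => X.T k q.1 q.2
  simpa only [sq, Fintype.sum_prod_type, Y, s] using this

theorem KK_le : ∑ i, X.K i * X.K i ≤ X.r * X.EE := by
  rw [mul_comm]; exact mat_sq X.E X.z

theorem BB_le : ∑ i, X.Bz i * X.Bz i ≤ X.s ^ 2 * X.r := by
  have h : ∀ i, X.Bz i = ∑ l, X.A i l * ∑ j, X.A l j * X.z j := fun i => EB.sq_mul X.z i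
  simp only [h]
  refine (mat_sq X.A _).trans ?_
  rw [sq, mul_assoc]
  exact mul_le_mul_of_nonneg_left (mat_sq X.A X.z) X.s_nonneg

theorem comb_le {a b c d e C : ℝ} (h : a ^ 2 + b ^ 2 + c ^ 2 + d ^ 2 + e ^ 2 ≤ C) :
    ∑ i, (a * X.Y i + b * X.K i + c * (X.r * X.z i) + d * (X.s * X.z i) + e * X.Bz i) ^ 2
      ≤ C * (X.r + X.s) * (X.TT + X.EE + (X.r + X.s) ^ 2) := by
  have hC : 0 ≤ C := le_trans (by positivity) h
  have h1 : ∀ i, (a * X.Y i + b * X.K i + c * (X.r * X.z i) + d * (X.s * X.z i) + e * X.Bz i) ^ 2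
      ≤ C * (X.Y i * X.Y i + X.K i * X.K i + (X.r ^ 2 + X.s ^ 2) * (X.z i * X.z i)
        + X.Bz i * X.Bz i) := fun i =>
    (cs5 _ _ _ _ _ _ _ _ _ _).trans ((mul_le_mul_of_nonneg_right h (by positivity)).trans
      (le_of_eq (by ring)))
  refine (sum_le_sum fun i _ => h1 i).trans ?_
  rw [← mul_sum, mul_assoc]
  refine mul_le_mul_of_nonneg_left ?_ hC
  simp only [sum_add_distrib, ← mul_sum]
  rw [← r]
  have a1 := X.s_nonneg
  have a2 := X.r_nonneg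
  nlinarith [X.YY_le, X.KK_le, X.BB_le, mul_nonneg a1 X.EE_nonneg, mul_nonneg a2 X.TT_nonneg,
    mul_nonneg (mul_nonneg a1 a2) a1, mul_nonneg (mul_nonneg a1 a2) a2, pow_nonneg a1 3]

theorem sg_pos (hc : 0 < P.c) (h : 0 < X.r + X.s) : 0 < X.sg P := by
  have a1 := X.s_nonneg
  rw [sg]
  rcases X.r_nonneg.eq_or_lt with h0 | h0
  · rw [← h0] at h ⊢; linarith
  · have := mul_pos hc h0; linarith

theorem drho_eq (hσ : 0 < X.sg P) (i : ι) : X.drho P i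
    = (2 * P.W.v (X.xi P) + 2 * P.W.dv (X.xi P) * (X.xi P * (1 - X.xi P))) * X.Y i
      + (2 * P.D1 - 2 * P.W.dv (X.xi P) * P.c * X.xi P ^ 2) * X.K i
      + - (2 * P.D1) * (X.r * X.z i)
      + 2 * P.W.dv (X.xi P) * (X.xi P * (1 - X.xi P)) * (X.s * X.z i) + 0 * X.Bz i := by
  have h0 := hσ.ne'
  have h1 : X.s * X.dxi P i = 2 * (X.xi P * (1 - X.xi P) * X.Y i - P.c * X.xi P ^ 2 * X.K i
      + X.xi P * (1 - X.xi P) * (X.s * X.z i)) := by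
    rw [dxi, xi]
    field_simp
    rw [sg]
    ring
  rw [drho]
  linear_combination P.W.dv (X.xi P) * h1

end Ten

theorem bd : P134I.BD := by
  intro P hc
  obtain ⟨C1, p1, h1⟩ := bdd01 (f := fun x => |P.D1| + |P.W.v x|) (by fun_prop)
  obtain ⟨C2, p2, h2⟩ := bdd01 (f := fun x => (2 * P.W.v x + 2 * P.W.dv x * (x * (1 - x))) ^ 2
    + (2 * P.D1 - 2 * P.W.dv x * P.c * x ^ 2) ^ 2 + (- (2 * P.D1)) ^ 2
    + (2 * P.W.dv x * (x * (1 - x))) ^ 2 + 0 ^ 2) (by fun_prop)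
  obtain ⟨C3, p3, h3⟩ := bdd01 (f := fun x => P.k1.v x ^ 2 + P.k2.v x ^ 2 + P.l0 ^ 2
    + P.k4.v x ^ 2 + P.k5.v x ^ 2) (by fun_prop)
  refine ⟨C1 + C2 + C3, by positivity, fun X hw => ?_⟩
  have hσ := X.sg_pos P hc hw
  have a1 := X.s_nonneg
  have a2 := X.r_nonneg
  have x0 : 0 ≤ X.xi P := div_nonneg a1 hσ.le
  have x1 : X.xi P ≤ 1 := (div_le_one hσ).2 (le_add_of_nonneg_right (mul_nonneg hc.le a2))
  refine ⟨?_, ?_, ?_⟩
  · rw [Ten.rho]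
    refine (abs_add_le _ _).trans ?_
    rw [abs_mul, abs_mul, abs_of_nonneg a1, abs_of_nonneg a2]
    have := mul_le_mul_of_nonneg_right (h1 _ x0 x1) hw.le
    nlinarith [mul_nonneg (abs_nonneg P.D1) a1, mul_nonneg (abs_nonneg (P.W.v (X.xi P))) a2,
      mul_nonneg p2 hw.le, mul_nonneg p3 hw.le]
  · simp only [X.drho_eq P hσ]
    exact X.comb_le ((h2 _ x0 x1).trans (by linarith))
  · exact X.comb_le ((h3 _ x0 x1).trans (by linarith))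

theorem err0 {α β γ δ C r s gx gk y k b : ℝ} (h : α ^ 2 + β ^ 2 + γ ^ 2 + δ ^ 2 + 0 ^ 2 ≤ C)
    (a1 : 0 ≤ s) (a2 : 0 ≤ r) (g1 : 0 ≤ gx) (g2 : 0 ≤ gk) (b1 : y ^ 2 ≤ r * (s * gx))
    (b2 : k ^ 2 ≤ r * (r * gk)) (b3 : b ^ 2 ≤ r * (s ^ 2 * r)) :
    (α * y + β * k + γ * (s * r) + δ * b) ^ 2
      ≤ 2 * C * ((gx + gk + s * r) * (r ^ 2 + s * r)) := by
  have key := (cs5 α β γ δ 0 y k (s * r) b 0).trans
    (mul_le_mul_of_nonneg_right h (by positivity))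
  have b4 : y ^ 2 + k ^ 2 + (s * r) ^ 2 + b ^ 2 + 0 ^ 2
      ≤ 2 * ((gx + gk + s * r) * (r ^ 2 + s * r)) := by
    have c1 := mul_nonneg a1 a2
    nlinarith [mul_nonneg g1 c1, mul_nonneg g2 c1, mul_nonneg g1 (sq_nonneg r),
      mul_nonneg g2 (sq_nonneg r), mul_nonneg c1 (sq_nonneg r)]
  have := mul_le_mul_of_nonneg_left b4 (le_trans (by positivity) h)
  linarith

theorem err : P134I.ERR := by
  intro P hc
  obtain ⟨C1, p1, h1⟩ := bdd01 (f := fun x => |P.W.v x|) (by fun_prop)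
  obtain ⟨C2, p2, h2⟩ := bdd01 (f := fun x =>
    (2 * P.W.v x + 2 * P.W.dv x * (x * (1 - x)) - 2 * P.k1.v x) ^ 2
    + (2 * P.D1 - 2 * P.W.dv x * P.c * x ^ 2 - 2 * P.k2.v x) ^ 2
    + (2 * P.W.dv x * (x * (1 - x)) - 2 * P.W.v x - 2 * P.k4.v x) ^ 2
    + (- (2 * P.k5.v x)) ^ 2 + 0 ^ 2) (by fun_prop)
  refine ⟨C1 + 2 * C2, by positivity, fun X hw => ?_⟩
  have hσ := X.sg_pos P hc hw
  have a1 := X.s_nonneg
  have a2 := X.r_nonneg
  have x0 : 0 ≤ X.xi P := div_nonneg a1 hσ.le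
  have x1 : X.xi P ≤ 1 := (div_le_one hσ).2 (le_add_of_nonneg_right (mul_nonneg hc.le a2))
  refine ⟨?_, fun gx gk g1 g2 hY hK => ?_⟩
  · rw [Ten.rho, add_sub_cancel_left, abs_mul, abs_of_nonneg a1, mul_comm]
    exact mul_le_mul_of_nonneg_right ((h1 _ x0 x1).trans (by linarith)) a1
  have e1 : ∑ i, X.z i * X.drho P i
      = (2 * P.W.v (X.xi P) + 2 * P.W.dv (X.xi P) * (X.xi P * (1 - X.xi P))) * ∑ i, X.z i * X.Y i
        + (2 * P.D1 - 2 * P.W.dv (X.xi P) * P.c * X.xi P ^ 2) * ∑ i, X.z i * X.K i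
        + (- (2 * P.D1) * X.r + 2 * P.W.dv (X.xi P) * (X.xi P * (1 - X.xi P)) * X.s)
          * ∑ i, X.z i * X.z i := by
    simp only [mul_sum, ← sum_add_distrib]
    exact sum_congr rfl fun i _ => by rw [X.drho_eq P hσ]; ring
  have b1 := Ten.dot_sq X.z X.Y
  have b2 := Ten.dot_sq X.z X.K
  have b3 := (Ten.dot_sq X.z X.Bz).trans (mul_le_mul_of_nonneg_left X.BB_le a2)
  have hr : ∑ i, X.z i * X.z i = X.r := rfl
  rw [hr] at e1
  rw [hr, hY] at b1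
  rw [hr, hK] at b2
  have key := err0 (h2 _ x0 x1) a1 a2 g1 g2 b1 b2 b3
  have b5 : 0 ≤ C1 * ((gx + gk + X.s * X.r) * (X.r ^ 2 + X.s * X.r)) := by positivity
  rw [e1, Ten.zfld, Ten.rho]
  refine (le_of_eq ?_).trans (key.trans (by linarith))
  ring

end Vale.Agent.P134Q
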