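import Vale.Agent.P134Q.Alg

/-!
# P134Q: the identity of Bochner and the divergence of the five fields
-/

open Finset

namespace Vale.Agent.P134Q

namespace TC

variable {ι R : Type} [Fintype ι] [CommRing R] (D : TC ι R) (l : R)

/-- the gradient of `l` -/
def z (i : ι) : R := D.d i l

/-- its squared norm -/
def r : R := ∑ i, D.z l i * D.z l i

/-- `A z` -/
def Az (i : ι) : R := ∑ j, D.A i j * D.z l j

/-- `A^2 z` -/
def Bz (i : ι) : R := ∑ j, D.B i j * D.z l j

/-- the covariant Hessian of `l` -/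
def H (i j : ι) : R := D.d i (D.z l j) + D.n j * D.Az l i

theorem nz : ∑ i, D.n i * D.z l i = 0 := D.nd l

theorem nAz : ∑ i, D.n i * D.Az l i = 0 := by
  simp only [Az, mul_sum]
  rw [sum_comm]
  refine sum_eq_zero fun j _ => ?_
  simp only [← mul_assoc]
  rw [← sum_mul, nA, zero_mul]

theorem AAz (i : ι) : ∑ j, D.A i j * D.Az l j = D.Bz l i := by
  simp only [Az, Bz, B, mul_sum, sum_mul]
  rw [sum_comm]
  exact sum_congr rfl fun j _ => sum_congr rfl fun k _ => by ring

theorem sqAz : ∑ i, D.Az l i * D.Az l i = ∑ i, D.z l i * D.Bz l i := by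
  simp only [← AAz, mul_sum]
  rw [sum_comm]
  refine sum_congr rfl fun i _ => ?_
  rw [show D.Az l i * D.Az l i = (∑ j, D.A i j * D.z l j) * D.Az l i from rfl, sum_mul]
  exact sum_congr rfl fun j _ => by rw [A_sym D j i]; ring

theorem dz_comm (i j : ι) :
    D.d i (D.z l j) = D.d j (D.z l i) + D.n i * D.Az l j - D.n j * D.Az l i := D.comm i j l

theorem H_sym (i j : ι) : D.H l i j = D.H l j i := by rw [H, H, dz_comm]; ring

theorem dzn (i : ι) : ∑ j, D.n j * D.d i (D.z l j) = - D.Az l i := by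
  have h := congrArg (D.d i) (D.nz l)
  rw [map_sum, map_zero] at h
  have h2 : ∑ j, D.d i (D.n j * D.z l j) = D.Az l i + ∑ j, D.n j * D.d i (D.z l j) := by
    rw [Az, ← sum_add_distrib]
    exact sum_congr rfl fun j _ => by rw [D.lb]; rfl
  linear_combination h - h2

theorem Hn (i : ι) : ∑ j, D.H l i j * D.n j = 0 := by
  have : ∀ j, D.H l i j * D.n j = D.n j * D.d i (D.z l j) + D.n j * D.n j * D.Az l i :=
    fun j => by rw [H]; ring
  simp only [this, sum_add_distrib, ← sum_mul, dzn, D.un]; ring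

theorem trH : ∑ i, D.H l i i = ∑ i, D.d i (D.z l i) := by
  simp only [H, sum_add_distrib, nAz, add_zero]

theorem dr0 (i : ι) : D.d i (D.r l) = 2 * ∑ j, D.H l i j * D.z l j := by
  have : ∀ j, D.H l i j * D.z l j = D.d i (D.z l j) * D.z l j + D.Az l i * (D.n j * D.z l j) :=
    fun j => by rw [H]; ring
  simp only [this, sum_add_distrib, ← mul_sum, nz, mul_zero, add_zero]
  rw [r, map_sum, mul_sum]
  exact sum_congr rfl fun j _ => by rw [D.lb]; ring

theorem sqH : ∑ i, ∑ j, D.d i (D.z l j) * D.d i (D.z l j)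
    = ∑ i, ∑ j, D.H l i j * D.H l i j + ∑ i, D.z l i * D.Bz l i := by
  rw [← sqAz, ← sum_add_distrib]
  refine sum_congr rfl fun i _ => ?_
  have h : ∀ j, D.d i (D.z l j) * D.d i (D.z l j) = D.H l i j * D.H l i j
      - 2 * D.Az l i * (D.H l i j * D.n j) + D.Az l i * D.Az l i * (D.n j * D.n j) := fun j => by
    rw [H]; ring
  simp only [h, sum_add_distrib, sum_sub_distrib, ← mul_sum, Hn, D.un]
  ring

theorem lapz : ∃ w, ∀ j, ∑ i, D.d i (D.d i (D.z l j))
    = D.d j (∑ i, D.d i (D.z l i)) - 2 * D.Bz l j - D.n j * w := by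
  refine ⟨∑ i, ∑ k, D.A i k * D.d k (D.z l i) + ∑ i, D.d i (D.Az l i), fun j => ?_⟩
  have h1 : ∀ i, D.d i (D.d i (D.z l j)) = D.d j (D.d i (D.z l i))
      + ∑ k, D.A j k * (D.n i * D.d k (D.z l i)) - D.n j * ∑ k, D.A i k * D.d k (D.z l i)
      + D.A i i * D.Az l j + D.n i * D.d i (D.Az l j) - D.A j i * D.Az l i
      - D.n j * D.d i (D.Az l i) := fun i => by
    have e : ∑ k, D.A j k * (D.n i * D.d k (D.z l i))
        = D.n i * ∑ k, D.A j k * D.d k (D.z l i) := by
      rw [mul_sum]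
      exact sum_congr rfl fun k _ => by ring
    rw [dz_comm D l i j, map_sub, map_add, D.lb, D.lb, comm D i j, A_sym D j i, e,
      show D.d i (D.n i) = D.A i i from rfl, show D.d i (D.n j) = D.A i j from rfl]
    ring
  have h2 : ∑ i, ∑ k, D.A j k * (D.n i * D.d k (D.z l i)) = - D.Bz l j := by
    rw [sum_comm, ← AAz, ← sum_neg_distrib]
    exact sum_congr rfl fun k _ => by rw [← mul_sum, dzn]; ring
  simp only [h1, sum_sub_distrib, sum_add_distrib, ← mul_sum, ← sum_mul]
  rw [h2, trA, D.nd, AAz, map_sum]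
  ring

/-- the identity of Bochner -/
theorem divV : ∑ i, D.d i (∑ j, D.H l i j * D.z l j) = ∑ i, ∑ j, D.H l i j * D.H l i j
    + ∑ j, D.z l j * D.d j (∑ i, D.d i (D.z l i)) - ∑ i, D.z l i * D.Bz l i := by
  have h0 : ∀ i, ∑ j, D.H l i j * D.z l j = ∑ j, D.d i (D.z l j) * D.z l j := fun i => by
    have : ∀ j, D.H l i j * D.z l j
        = D.d i (D.z l j) * D.z l j + D.Az l i * (D.n j * D.z l j) := fun j => by rw [H]; ring
    simp only [this, sum_add_distrib, ← mul_sum, nz, mul_zero, add_zero]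
  have h1 : ∀ i, D.d i (∑ j, D.d i (D.z l j) * D.z l j) = ∑ j, D.d i (D.d i (D.z l j)) * D.z l j
      + ∑ j, D.d i (D.z l j) * D.d i (D.z l j) := fun i => by
    rw [map_sum, ← sum_add_distrib]
    exact sum_congr rfl fun j _ => by rw [D.lb]
  obtain ⟨w, hw⟩ := D.lapz l
  have h2 : ∑ i, ∑ j, D.d i (D.d i (D.z l j)) * D.z l j
      = ∑ j, D.z l j * D.d j (∑ i, D.d i (D.z l i)) - 2 * ∑ i, D.z l i * D.Bz l i
        - w * ∑ j, D.n j * D.z l j := by
    rw [sum_comm, mul_sum, mul_sum, ← sum_sub_distrib, ← sum_sub_distrib]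
    exact sum_congr rfl fun j _ => by rw [← sum_mul, hw]; ring
  simp only [h0, h1, sum_add_distrib]
  rw [h2, nz, sqH]
  ring

theorem divBz0 : ∑ i, D.d i (D.Bz l i)
    = ∑ i, D.z l i * D.Y i + ∑ i, ∑ j, D.B i j * D.H l i j := by
  have h1 : ∀ i, D.d i (D.Bz l i) = ∑ j, D.d i (D.B i j) * D.z l j
      + ∑ j, D.B i j * D.H l i j := fun i => by
    have : ∀ j, D.d i (D.B i j * D.z l j) = D.d i (D.B i j) * D.z l j + D.B i j * D.H l i j
        - D.B i j * D.n j * D.Az l i := fun j => by rw [D.lb, H]; ring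
    rw [Bz, map_sum]
    simp only [this, sum_sub_distrib, sum_add_distrib, ← sum_mul, Bn]
    ring
  have h2 : ∑ i, ∑ j, D.d i (D.B i j) * D.z l j = ∑ i, D.z l i * D.Y i
      - (∑ i, ∑ k, D.A i k * D.B i k) * ∑ j, D.n j * D.z l j := by
    rw [sum_comm, mul_sum, ← sum_sub_distrib]
    exact sum_congr rfl fun j _ => by rw [← sum_mul, divB]; ring
  simp only [h1, sum_add_distrib]
  rw [h2, nz]
  ring

variable [DecidableEq ι]

/-- the tangential projection -/
def P (i j : ι) : R := (if i = j then 1 else 0) - D.n i * D.n j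

/-- the trace free part of the Hessian, relative to the flat model -/
def E (i j : ι) : R := D.H l i j - D.r l * D.P i j + 2 * (D.z l i * D.z l j)

/-- `E z` -/
def K (i : ι) : R := ∑ j, D.E l i j * D.z l j

theorem P_sym (i j : ι) : D.P i j = D.P j i := by
  simp only [P, eq_comm (a := i)]; ring

theorem P_mul (v : ι → R) (i : ι) : ∑ j, D.P i j * v j = v i - D.n i * ∑ j, D.n j * v j := by
  simp only [P, sub_mul, sum_sub_distrib, ite_mul, one_mul, zero_mul, sum_ite_eq, mem_univ,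
    if_true, mul_sum, mul_assoc]

theorem trP (h : Fintype.card ι = 7) : ∑ i, D.P i i = 6 := by
  simp only [P, if_true, sum_sub_distrib, D.un, sum_const, card_univ, h]
  norm_num

theorem E_sym (i j : ι) : D.E l i j = D.E l j i := by
  rw [E, E, H_sym, P_sym]; ring

theorem En (i : ι) : ∑ j, D.E l i j * D.n j = 0 := by
  have : ∀ j, D.E l i j * D.n j = D.H l i j * D.n j - D.r l * (D.P i j * D.n j)
      + 2 * D.z l i * (D.n j * D.z l j) := fun j => by rw [E]; ring
  simp only [this, sum_add_distrib, sum_sub_distrib, ← mul_sum, Hn, P_mul, D.un, nz]; ring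

theorem Hz (i : ι) : ∑ j, D.H l i j * D.z l j = D.K l i - D.r l * D.z l i := by
  have : ∀ j, D.E l i j * D.z l j = D.H l i j * D.z l j - D.r l * (D.P i j * D.z l j)
      + 2 * D.z l i * (D.z l j * D.z l j) := fun j => by rw [E]; ring
  simp only [K, this, sum_add_distrib, sum_sub_distrib, ← mul_sum, P_mul, nz]
  rw [← r]; ring

theorem dr (i : ι) : D.d i (D.r l) = 2 * (D.K l i - D.r l * D.z l i) := by rw [dr0, Hz]

theorem zdr : ∑ i, D.z l i * D.d i (D.r l)
    = 2 * ∑ i, D.z l i * D.K l i - 2 * (D.r l * D.r l) := by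
  have : ∀ i, D.z l i * D.d i (D.r l) = 2 * (D.z l i * D.K l i)
      - 2 * D.r l * (D.z l i * D.z l i) := fun i => by rw [dr]; ring
  simp only [this, sum_sub_distrib, ← mul_sum]
  rw [← r]; ring

theorem contr (F : ι → ι → R) (hF : ∀ i, ∑ j, F i j * D.n j = 0) :
    ∑ i, ∑ j, F i j * D.H l i j = ∑ i, ∑ j, F i j * D.E l i j + D.r l * ∑ i, F i i
      - 2 * ∑ i, D.z l i * ∑ j, F i j * D.z l j := by
  rw [mul_sum, mul_sum, ← sum_add_distrib, ← sum_sub_distrib]
  refine sum_congr rfl fun i _ => ?_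
  have : ∀ j, F i j * D.H l i j = F i j * D.E l i j + D.r l * (D.P i j * F i j)
      - 2 * D.z l i * (F i j * D.z l j) := fun j => by rw [E]; ring
  have h2 : ∑ j, D.n j * F i j = 0 := by simpa only [mul_comm] using hF i
  simp only [this, sum_add_distrib, sum_sub_distrib, ← mul_sum, P_mul, h2]
  ring

variable {l}
variable (h7 : Fintype.card ι = 7) (hl : ∑ i, D.d i (D.z l i) = 4 * D.r l)

include h7 hl

theorem trE : ∑ i, D.E l i i = 0 := by
  simp only [E, sum_add_distrib, sum_sub_distrib, ← mul_sum, trH, hl, D.trP h7]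
  rw [← r]; ring

theorem sqE : ∑ i, ∑ j, D.H l i j * D.H l i j = ∑ i, ∑ j, D.E l i j * D.E l i j
    - 4 * ∑ i, D.z l i * D.K l i + 6 * (D.r l * D.r l) := by
  have h1 := D.contr l (D.H l) (D.Hn l)
  have h2 := D.contr l (D.E l) (D.En l)
  have h3 : ∑ i, ∑ j, D.H l i j * D.E l i j = ∑ i, ∑ j, D.E l i j * D.H l i j := by
    simp only [mul_comm]
  have h4 : ∑ i, D.z l i * ∑ j, D.H l i j * D.z l j
      = ∑ i, D.z l i * D.K l i - D.r l * D.r l := by
    have : ∀ i, D.z l i * ∑ j, D.H l i j * D.z l j = D.z l i * D.K l i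
      - D.r l * (D.z l i * D.z l i) := fun i => by rw [Hz]; ring
    simp only [this, sum_sub_distrib, ← mul_sum]
    rw [← r]
  rw [h3, h2, D.trE h7 hl, h4, trH, hl] at h1
  rw [h1]
  simp only [K]
  ring

omit h7 in
theorem divrz : ∑ i, D.d i (D.r l * D.z l i)
    = 2 * ∑ i, D.z l i * D.K l i + 2 * (D.r l * D.r l) := by
  have : ∀ i, D.d i (D.r l * D.z l i) = D.z l i * D.d i (D.r l) + D.r l * D.d i (D.z l i) :=
    fun i => by rw [D.lb]; ring
  simp only [this, sum_add_distrib, ← mul_sum, zdr, hl]; ring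

omit h7 [DecidableEq ι] in
theorem divsz : ∑ i, D.d i (D.s * D.z l i)
    = 2 * ∑ i, D.z l i * D.Y i + 4 * (D.s * D.r l) := by
  have : ∀ i, D.d i (D.s * D.z l i) = 2 * (D.z l i * D.Y i) + D.s * D.d i (D.z l i) :=
    fun i => by rw [D.lb, ds]; ring
  simp only [this, sum_add_distrib, ← mul_sum, hl]; ring

theorem divK : ∑ i, D.d i (D.K l i) = ∑ i, ∑ j, D.E l i j * D.E l i j
    + 6 * ∑ i, D.z l i * D.K l i - ∑ i, D.z l i * D.Bz l i := by
  have h1 : ∀ i, D.d i (D.K l i)
      = D.d i (∑ j, D.H l i j * D.z l j) + D.d i (D.r l * D.z l i) := fun i => by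
    rw [← map_add, Hz]; congr 1; ring
  have h2 : ∀ j, D.z l j * D.d j (4 * D.r l) = 4 * (D.z l j * D.d j (D.r l)) := fun j => by
    have h4 : D.d j 4 = 0 := by simpa using D.d_nat j 4
    rw [D.lb, h4]; ring
  simp only [h1, sum_add_distrib]
  rw [divV, D.divrz hl, hl, D.sqE h7 hl]
  simp only [h2, ← mul_sum, zdr]
  ring

omit h7 hl in
theorem divBz : ∑ i, D.d i (D.Bz l i) = ∑ i, D.z l i * D.Y i + D.r l * D.s
    - 2 * ∑ i, D.z l i * D.Bz l i + ∑ i, ∑ j, D.B i j * D.E l i j := by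
  rw [divBz0, D.contr l D.B D.Bn, trB]
  simp only [Bz]
  ring

end TC

end Vale.Agent.P134Q
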