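import Vale.Agent.P134Q.Spec
import Vale.Agent.P134Q.Boc
import Vale.Agent.P134I.OfCalc

/-!
# P134Q: proof of DIV
-/

open Finset Set Filter Topology
open scoped ContDiff

noncomputable section

namespace Vale.Agent.P134Q

namespace TC

variable {ι R : Type} [Fintype ι] [DecidableEq ι] [CommRing R] (D : TC ι R) {l : R}
  (h7 : Fintype.card ι = 7) (hl : ∑ i, D.d i (D.z l i) = 4 * D.r l) (φ : R →+* ℝ)

/-- the values of the tensors -/
def ten : Ten ι where
  N i := φ (D.n i)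
  z i := φ (D.z l i)
  A i j := φ (D.A i j)
  E i j := φ (D.E l i j)
  T k i j := φ (D.T k i j)
  hN := by simp only [← map_mul, ← map_sum, D.un, map_one]
  hz := by simp only [← map_mul, ← map_sum, D.nz, map_zero]
  hA i j := by rw [D.A_sym]
  AN i := by simp only [← map_mul, ← map_sum, D.An, map_zero]
  trA := by simp only [← map_sum, D.trA, map_zero]
  hE i j := by rw [D.E_sym]
  EN i := by simp only [← map_mul, ← map_sum, D.En, map_zero]
  trE := by simp only [← map_sum, D.trE h7 hl, map_zero]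
  T1 k i j := by rw [D.T_s1]
  T2 k i j := by rw [D.T_s2]
  TN k i := by simp only [← map_mul, ← map_sum, D.Tn, map_zero]
  trT k := by simp only [← map_sum, D.trT, map_zero]

theorem ten_z (i : ι) : φ (D.z l i) = (D.ten h7 hl φ).z i := rfl

theorem ten_s : φ D.s = (D.ten h7 hl φ).s := by simp only [s, map_sum, map_mul]; rfl

theorem ten_r : φ (D.r l) = (D.ten h7 hl φ).r := by simp only [r, map_sum, map_mul]; rfl

theorem ten_B (i j : ι) : φ (D.B i j) = (D.ten h7 hl φ).B i j := by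
  simp only [B, map_sum, map_mul]; rfl

theorem ten_Y (k : ι) : φ (D.Y k) = (D.ten h7 hl φ).Y k := by
  simp only [Y_eq, map_sum, map_mul]; rfl

theorem ten_K (k : ι) : φ (D.K l k) = (D.ten h7 hl φ).K k := by
  simp only [K, map_sum, map_mul]; rfl

theorem ten_Bz (k : ι) : φ (D.Bz l k) = (D.ten h7 hl φ).Bz k := by
  simp only [Bz, map_sum, map_mul, D.ten_B h7 hl]; rfl

theorem ten_TT : φ (∑ k, ∑ i, ∑ j, D.T k i j * D.T k i j) = (D.ten h7 hl φ).TT := by
  simp only [map_sum, map_mul]; rfl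

theorem ten_EE : φ (∑ i, ∑ j, D.E l i j * D.E l i j) = (D.ten h7 hl φ).EE := by
  simp only [map_sum, map_mul]; rfl

theorem ten_BE : φ (∑ i, ∑ j, D.B i j * D.E l i j) = (D.ten h7 hl φ).BE := by
  simp only [map_sum, map_mul, D.ten_B h7 hl]; rfl

omit [DecidableEq ι] in
theorem ten_dot {u v : ι → R} {u' v' : ι → ℝ} (hu : ∀ i, φ (u i) = u' i)
    (hv : ∀ i, φ (v i) = v' i) : φ (∑ i, u i * v i) = ∑ i, u' i * v' i := by
  simp only [map_sum, map_mul, hu, hv]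

end TC

theorem Cub.hasDerivAt (p : Cub) (x : ℝ) : HasDerivAt p.v (p.dv x) x := by
  have h := ((((hasDerivAt_id x).const_mul p.b).const_add p.a).add
    ((hasDerivAt_pow 2 x).const_mul p.c)).add ((hasDerivAt_pow 3 x).const_mul p.d)
  refine HasDerivAt.congr_deriv (f := p.v) h ?_
  rw [Cub.dv]; push_cast; ring

theorem Cub.contDiff (p : Cub) : ContDiff ℝ ∞ p.v := by
  unfold Cub.v
  fun_prop

open P134L P134I

theorem div : DIV := by
  intro M _ _ G U τ P h1 h2 hU hτ hL hc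
  let c := pc h1 h2
  let D := c.tcU hU
  let l : c.RU U := c.indU hU τ hτ
  have h7 : Fintype.card (Fin (6 + 1)) = 7 := by simp
  have hz : ∀ q ∈ U, ∀ i, (D.z l i).1 =ᶠ[𝓝 q] G.δ i τ := fun q hq i => by
    filter_upwards [hU.mem_nhds hq] with y hy
    exact (c.tcU_d hU i l hy).trans (h1.cgr (PC.ind_ev hU hy τ) i)
  have hr : ∀ q ∈ U, (D.r l).1 q = G.Gam τ τ q := fun q hq => by
    simp only [TC.r, PC.val_sum, PC.val_mul, (hz q hq _).self_of_nhds, Geo.Gam]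
  have hl : ∑ i, D.d i (D.z l i) = 4 * D.r l := by
    have h4 : ∀ x, (4 * D.r l).1 x = 4 * (D.r l).1 x := fun x =>
      (map_mul (c.evU U x) 4 _).trans (by rw [map_ofNat]; rfl)
    refine c.extU (fun q hq => ?_) fun q hq => ?_
    · rw [h4, hr q hq, ← hL q hq, PC.val_sum]
      exact sum_congr rfl fun i _ => (c.tcU_d hU i _ hq).trans (h1.cgr (hz q hq i) i)
    · have : ∀ i, (D.z l i).1 q = 0 := fun i => c.tcU_d_out hU i l hq
      have h5 : ∀ i, (D.d i (D.z l i)).1 q = 0 := fun i => c.tcU_d_out hU i _ hq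
      simp only [TC.r, PC.val_sum, PC.val_mul, this, h5, mul_zero, sum_const_zero]
  let ξ : M → ℝ := fun x => D.s.1 x * (D.s.1 x + P.c * (D.r l).1 x)⁻¹
  refine ⟨fun x => P.D1 * (D.r l).1 x + P.W.v (ξ x) * D.s.1 x,
    fun i x => P.k1.v (ξ x) * (D.Y i).1 x + P.k2.v (ξ x) * (D.K l i).1 x
      + P.l0 * (D.r l * D.z l i).1 x + P.k4.v (ξ x) * (D.s * D.z l i).1 x
      + P.k5.v (ξ x) * (D.Bz l i).1 x,
    (∑ k, ∑ i, ∑ j, D.T k i j * D.T k i j + ∑ i, ∑ j, D.E l i j * D.E l i j : c.RU U).1,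
    fun q hq => (h2.cont (Subtype.property (p := (· ∈ c.RU U)) _ q hq)).continuousWithinAt,
    fun q hq hσ => ?_⟩
  let φ := c.evU U q
  let X := D.ten h7 hl φ
  have sm : ∀ f : c.RU U, G.Sm f.1 q := fun f => f.2 q hq
  have dl : ∀ (f : c.RU U) i, G.δ i f.1 q = φ (D.d i f) := fun f i => (c.tcU_d hU i f hq).symm
  have vl : ∀ f : c.RU U, f.1 q = φ f := fun f => rfl
  have es : φ D.s = X.s := D.ten_s h7 hl φ
  have er : φ (D.r l) = X.r := D.ten_r h7 hl φ
  have ez : ∀ i, φ (D.z l i) = X.z i := D.ten_z h7 hl φ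
  have eY : ∀ i, φ (D.Y i) = X.Y i := D.ten_Y h7 hl φ
  have eK : ∀ i, φ (D.K l i) = X.K i := D.ten_K h7 hl φ
  have eB : ∀ i, φ (D.Bz l i) = X.Bz i := D.ten_Bz h7 hl φ
  have xs : X.s = G.A2 q := by rw [← es, ← pc_s h1 h2]; exact c.tcU_s hU hq
  have xr : X.r = G.Gam τ τ q := by rw [← er]; exact hr q hq
  have hσ' : 0 < X.sg P := by
    rw [Geo.sg, ← xs, ← xr] at hσ
    have a1 := X.s_nonneg
    have a2 := X.r_nonneg
    rw [Ten.sg]
    rcases a2.eq_or_lt with h | h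
    · rw [← h] at hσ ⊢; linarith
    · have := mul_pos hc h; linarith
  have ds : ∀ i, G.δ i D.s.1 q = 2 * X.Y i := fun i => by
    rw [dl, D.ds, map_mul, map_ofNat, eY]
  have dr : ∀ i, G.δ i (D.r l).1 q = 2 * (X.K i - X.r * X.z i) := fun i => by
    rw [dl, D.dr, map_mul, map_ofNat, map_sub, map_mul, eK, er, ez]
  have cm : ∀ (a : ℝ) (f : c.RU U), G.Sm (fun x => a * f.1 x) q ∧
      ∀ i, G.δ i (fun x => a * f.1 x) q = a * G.δ i f.1 q := fun a f =>
    ⟨h2.mul (h2.smc a q) (sm f), fun i => by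
      rw [h2.δmul (h2.smc a q) (sm f), h2.δc]; ring⟩
  have sσ := h2.add (sm D.s) (cm P.c (D.r l)).1
  have vσ : D.s.1 q + P.c * (D.r l).1 q = X.sg P := by rw [vl, vl, es, er]; rfl
  have si := sm_inv h2 sσ (by rw [vσ]; exact hσ'.ne')
  have sξ : G.Sm ξ q := h2.mul (sm D.s) si
  have vξ : ξ q = X.xi P := by
    change D.s.1 q * (D.s.1 q + P.c * (D.r l).1 q)⁻¹ = _
    rw [vσ, vl, es, Ten.xi, div_eq_mul_inv]
  have dξ : ∀ i, G.δ i ξ q = X.dxi P i := fun i => by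
    have a1 := h2.δcomp (F := fun t => t⁻¹) (hasDerivAt_inv (vσ ▸ hσ'.ne')) sσ i
    have a2 := h2.δmul (sm D.s) si i
    rw [a1, h2.δadd (sm D.s) (cm P.c (D.r l)).1, (cm _ _).2, ds, dr, vσ, vl, es] at a2
    refine a2.trans ?_
    have := hσ'.ne'
    rw [Ten.dxi]
    field_simp
    rw [Ten.sg]
    ring
  have km : ∀ (k : Cub) (f : c.RU U), G.Sm (fun x => k.v (ξ x) * f.1 x) q ∧
      ∀ i, G.δ i (fun x => k.v (ξ x) * f.1 x) q
        = k.dv (X.xi P) * (X.dxi P i * φ f) + k.v (X.xi P) * G.δ i f.1 q := fun k f => by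
    have a1 : G.Sm (fun x => k.v (ξ x)) q :=
      h2.comp (.of_forall fun _ => k.contDiff.contDiffAt) sξ
    refine ⟨h2.mul a1 (sm f), fun i => ?_⟩
    rw [h2.δmul a1 (sm f), h2.δcomp (k.hasDerivAt _) sξ, dξ, vξ, vl]; ring
  have s2 := fun i => h2.add (km P.k1 (D.Y i)).1 (km P.k2 (D.K l i)).1
  have s3 := fun i => h2.add (s2 i) (cm P.l0 (D.r l * D.z l i)).1
  have s4 := fun i => h2.add (s3 i) (km P.k4 (D.s * D.z l i)).1
  refine ⟨h2.add (cm _ _).1 (km _ _).1, fun i => h2.add (s4 i) (km _ _).1, X, xs, xr,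
    fun i => (hz q hq i).self_of_nhds, ?_, fun i => ?_, fun i => ?_, ?_, ?_⟩
  · simp only [vξ, vl, es, er, Ten.rho]; ring
  · rw [h2.δadd (cm _ _).1 (km _ _).1, (cm _ _).2, (km _ _).2, dr, ds, es, Ten.drho]; ring
  · simp only [vξ, vl, map_mul, es, er, ez, eY, eK, eB, Ten.fld]
  · have e1 : ∀ i, G.δ i (fun x => P.k1.v (ξ x) * (D.Y i).1 x + P.k2.v (ξ x) * (D.K l i).1 x
        + P.l0 * (D.r l * D.z l i).1 x + P.k4.v (ξ x) * (D.s * D.z l i).1 x
        + P.k5.v (ξ x) * (D.Bz l i).1 x) q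
        = P.k1.v (X.xi P) * φ (D.d i (D.Y i)) + P.k1.dv (X.xi P) * (X.dxi P i * X.Y i)
          + P.k2.v (X.xi P) * φ (D.d i (D.K l i)) + P.k2.dv (X.xi P) * (X.dxi P i * X.K i)
          + P.l0 * φ (D.d i (D.r l * D.z l i)) + P.k4.v (X.xi P) * φ (D.d i (D.s * D.z l i))
          + P.k4.dv (X.xi P) * X.s * (X.dxi P i * X.z i)
          + P.k5.v (X.xi P) * φ (D.d i (D.Bz l i))
          + P.k5.dv (X.xi P) * (X.dxi P i * X.Bz i) := fun i => by
      rw [h2.δadd (s4 i) (km _ _).1, h2.δadd (s3 i) (km _ _).1, h2.δadd (s2 i) (cm _ _).1,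
        h2.δadd (km _ _).1 (km _ _).1]
      simp only [(km _ _).2, (cm _ _).2, dl, map_mul, es, ez, eY, eK, eB]
      ring
    simp only [Geo.Div, e1, sum_add_distrib, ← mul_sum, ← map_sum]
    rw [D.divY, D.divK h7 hl, D.divrz hl, D.divsz hl, D.divBz]
    simp only [map_add, map_sub, map_mul, map_ofNat, D.ten_TT h7 hl, D.ten_EE h7 hl,
      D.ten_BE h7 hl, TC.ten_dot φ ez eY, TC.ten_dot φ ez eK, TC.ten_dot φ ez eB, es, er]
    rfl
  · rw [vl, map_add, D.ten_TT h7 hl, D.ten_EE h7 hl]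

end Vale.Agent.P134Q
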