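import Vale.Agent.P134Q.Defs

/-!
# P134Q: the four certificates

Polynomials in `ξ` are lists of rational numbers.  The dependence on `u` is bounded below by a
polygon with four vertices; at a vertex the form is a sum of two squares and a form in `t, n`.
-/

set_option linter.all false

namespace Vale.Agent.P134Q.Ct

/-- value of a list of coefficients -/
noncomputable def ev : List ℚ → ℝ → ℝ
  | [], _ => 0
  | c :: r, x => c + x * ev r x

def add : List ℚ → List ℚ → List ℚ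
  | [], q => q
  | a :: p, [] => a :: p
  | a :: p, b :: q => (a + b) :: add p q

def sm (c : ℚ) : List ℚ → List ℚ
  | [] => []
  | a :: p => (c * a) :: sm c p

def mul : List ℚ → List ℚ → List ℚ
  | [], _ => []
  | a :: p, q => add (sm a q) (0 :: mul p q)

def half : List ℚ → List ℚ
  | [] => []
  | c :: r => c :: sm (1 / 2) (half r)

def mx (c : ℚ) : List ℚ → List ℚ
  | [] => [c]
  | a :: r => (c + a) :: mx a r

def sh : List ℚ → List ℚ
  | [] => []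
  | c :: r => mx c (sh r)

def lo : List ℚ → ℚ
  | [] => 0
  | c :: r => c + min 0 (lo r)

def chk : ℕ → List ℚ → Bool
  | 0, p => decide (0 ≤ lo p)
  | n + 1, p => decide (0 ≤ lo p) || (chk n (half p) && chk n (sh (half p)))

theorem ev_nil (x : ℝ) : ev [] x = 0 := rfl
theorem ev_cons (c : ℚ) (r : List ℚ) (x : ℝ) : ev (c :: r) x = c + x * ev r x := rfl

theorem ev_add : ∀ (p q : List ℚ) (x : ℝ), ev (add p q) x = ev p x + ev q x
  | [], q, x => by simp [add, ev]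
  | a :: p, [], x => by simp [add, ev]
  | a :: p, b :: q, x => by simp only [add, ev, ev_add p q x]; push_cast; ring

theorem ev_sm (c : ℚ) : ∀ (p : List ℚ) (x : ℝ), ev (sm c p) x = c * ev p x
  | [], x => by simp [sm, ev]
  | a :: p, x => by simp only [sm, ev, ev_sm c p x]; push_cast; ring

theorem ev_mul : ∀ (p q : List ℚ) (x : ℝ), ev (mul p q) x = ev p x * ev q x
  | [], q, x => by simp [mul, ev]
  | a :: p, q, x => by simp only [mul, ev_add, ev_sm, ev, ev_mul p q x]; push_cast; ring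

theorem ev_half : ∀ (p : List ℚ) (x : ℝ), ev (half p) x = ev p (x / 2)
  | [], x => by simp [half, ev]
  | a :: p, x => by simp only [half, ev, ev_sm, ev_half p x]; push_cast; ring

theorem ev_mx : ∀ (p : List ℚ) (c : ℚ) (x : ℝ), ev (mx c p) x = c + (x + 1) * ev p x
  | [], c, x => by simp [mx, ev]
  | a :: p, c, x => by simp only [mx, ev, ev_mx p a x]; push_cast; ring

theorem ev_sh : ∀ (p : List ℚ) (x : ℝ), ev (sh p) x = ev p (x + 1)
  | [], x => by simp [sh, ev]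
  | a :: p, x => by simp only [sh, ev_mx, ev, ev_sh p x]

theorem lo_le : ∀ (p : List ℚ) (x : ℝ), 0 ≤ x → x ≤ 1 → (lo p : ℝ) ≤ ev p x
  | [], x, _, _ => by simp [lo, ev]
  | a :: p, x, h0, h1 => by
    have h := lo_le p x h0 h1
    simp only [lo, ev]
    push_cast
    rcases le_total (0 : ℝ) (lo p) with h2 | h2
    · rw [min_eq_left h2]; nlinarith [mul_nonneg h0 (h2.trans h)]
    · rw [min_eq_right h2]; nlinarith [mul_le_mul_of_nonneg_left h h0]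

theorem chk_sound : ∀ (n : ℕ) (p : List ℚ), chk n p = true → ∀ x : ℝ, 0 ≤ x → x ≤ 1 → 0 ≤ ev p x
  | 0, p, h, x, h0, h1 => by
    have h2 : (0 : ℚ) ≤ lo p := by simpa [chk] using h
    exact le_trans (by exact_mod_cast h2) (lo_le p x h0 h1)
  | n + 1, p, h, x, h0, h1 => by
    simp only [chk, Bool.or_eq_true, Bool.and_eq_true, decide_eq_true_eq] at h
    rcases h with h | ⟨ha, hb⟩
    · exact le_trans (by exact_mod_cast h) (lo_le p x h0 h1)
    · rcases le_total x (1 / 2) with h2 | h2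
      · have := chk_sound n _ ha (2 * x) (by linarith) (by linarith)
        rwa [ev_half, show 2 * x / 2 = x by ring] at this
      · have := chk_sound n _ hb (2 * x - 1) (by linarith) (by linarith)
        rwa [ev_sh, ev_half, show (2 * x - 1 + 1) / 2 = x by ring] at this

theorem psd2 {p q e t n : ℝ} (hp : 0 ≤ p) (hq : 0 ≤ q) (h : 0 ≤ p * q - e ^ 2) :
    0 ≤ p * t ^ 2 + 2 * e * t * n + q * n ^ 2 := by
  rcases hp.eq_or_lt with rfl | hp
  · have : e = 0 := by nlinarith [sq_nonneg e]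
    subst this
    nlinarith [mul_nonneg hq (sq_nonneg n)]
  · by_contra hc
    push Not at hc
    nlinarith [mul_pos hp (neg_pos.2 hc), sq_nonneg (p * t + e * n), mul_nonneg h (sq_nonneg n)]

theorem schur {A B p q d c a y p13 p14 p23 p24 p34 r m x k n t : ℝ} (hA : 0 < A) (hB : 0 < B)
    (hp : 0 ≤ p) (hq : 0 ≤ q) (hd : 0 ≤ d)
    (e1 : p = r + (-1 / A * (a ^ 2 * (p13 * p13)) + -1 / B * (y ^ 2 * (p23 * p23))))
    (e2 : q = m + (-1 / A * (a ^ 2 * y ^ 2 * (p14 * p14)) + -1 / B * (p24 * p24)))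
    (e3 : c = p34 + (-1 / A * (a ^ 2 * (p13 * p14)) + -1 / B * (p23 * p24)))
    (e4 : d = p * q + -1 * (y ^ 2 * (c * c))) :
    0 ≤ A * x ^ 2 + B * k ^ 2 + 2 * a * p13 * x * t + 2 * a * y * p14 * x * n
      + 2 * y * p23 * k * t + 2 * p24 * k * n + r * t ^ 2 + 2 * y * p34 * t * n + m * n ^ 2 := by
  have k6 := psd2 (t := t) (n := n) (e := y * c) hp hq (by rw [e4] at hd; linarith)
  have e : A * x ^ 2 + B * k ^ 2 + 2 * a * p13 * x * t + 2 * a * y * p14 * x * n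
      + 2 * y * p23 * k * t + 2 * p24 * k * n + r * t ^ 2 + 2 * y * p34 * t * n + m * n ^ 2
      = A * (x + (a * p13 * t + a * y * p14 * n) / A) ^ 2
        + B * (k + (y * p23 * t + p24 * n) / B) ^ 2
        + (p * t ^ 2 + 2 * (y * c) * t * n + q * n ^ 2) := by
    rw [e1, e2, e3]
    field_simp
    ring
  rw [e]
  positivity

theorem poly4 {α β γ δ u : ℝ} (hγ : 0 ≤ γ) (hδ : 0 ≤ δ) (h0 : 0 ≤ u) (h1 : u ≤ 5 / 6)
    (v0 : 0 ≤ α + β * 0 + γ * 3 + δ * (1 / 36))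
    (v1 : 0 ≤ α + β * (1 / 5) + γ * (21 / 10) + δ * (-7 / 180))
    (v2 : 0 ≤ α + β * (3 / 5) + γ * (77 / 50) + δ * (2 / 15))
    (v3 : 0 ≤ α + β * (5 / 6) + γ * (4 / 3) + δ * (4 / 9)) :
    0 ≤ α + β * u + γ * (6 / (2 + 3 * u)) + δ * (u - 1 / 6) ^ 2 := by
  have hp : 0 < 2 + 3 * u := by linarith
  rcases le_total u (1 / 5) with h2 | h2
  · have a1 : 3 - 9 / 2 * u ≤ 6 / (2 + 3 * u) := by rw [le_div_iff₀ hp]; nlinarith [sq_nonneg u]
    have a2 : 1 / 36 - u / 3 ≤ (u - 1 / 6) ^ 2 := by nlinarith [sq_nonneg u]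
    nlinarith [mul_le_mul_of_nonneg_left a1 hγ, mul_le_mul_of_nonneg_left a2 hδ,
      mul_nonneg v0 (sub_nonneg.2 h2), mul_nonneg v1 h0]
  rcases le_total u (3 / 5) with h3 | h3
  · have a1 : 119 / 50 - 7 / 5 * u ≤ 6 / (2 + 3 * u) := by
      rw [le_div_iff₀ hp]; nlinarith [sq_nonneg (u - 1 / 2)]
    have a2 : -1 / 8 + 31 / 72 * u ≤ (u - 1 / 6) ^ 2 := by nlinarith [sq_nonneg (u - 55 / 144)]
    nlinarith [mul_le_mul_of_nonneg_left a1 hγ, mul_le_mul_of_nonneg_left a2 hδ,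
      mul_nonneg v1 (sub_nonneg.2 h3), mul_nonneg v2 (sub_nonneg.2 h2)]
  · have a1 : 145 / 70 - 31 / 35 * u ≤ 6 / (2 + 3 * u) := by
      rw [le_div_iff₀ hp]; nlinarith [sq_nonneg (u - 5 / 6)]
    have a2 : -2 / 3 + 4 / 3 * u ≤ (u - 1 / 6) ^ 2 := by nlinarith [sq_nonneg (u - 5 / 6)]
    nlinarith [mul_le_mul_of_nonneg_left a1 hγ, mul_le_mul_of_nonneg_left a2 hδ,
      mul_nonneg v2 (sub_nonneg.2 h1), mul_nonneg v3 (sub_nonneg.2 h3)]

/-- four rational numbers -/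
structure Q4 where
  a : ℚ
  b : ℚ
  c : ℚ
  d : ℚ

def Q4.l (p : Q4) : List ℚ := [p.a, p.b, p.c, p.d]
def Q4.l' (p : Q4) : List ℚ := [p.b, 2 * p.c, 3 * p.d]
noncomputable def Q4.r (p : Q4) : Cub := ⟨p.a, p.b, p.c, p.d⟩

theorem Q4.ev_l (p : Q4) (x : ℝ) : ev p.l x = p.r.v x := by
  simp only [Q4.l, Q4.r, ev, Cub.v]; ring

theorem Q4.ev_l' (p : Q4) (x : ℝ) : ev p.l' x = p.r.dv x := by
  simp only [Q4.l', Q4.r, ev, Cub.dv]; push_cast; ring

/-- rational data, with `c = 6` and `k2 = 1` -/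
structure Dat where
  l0 : ℚ
  D1 : ℚ
  k1 : ℚ
  k4 : Q4
  k5 : Q4
  W : Q4

namespace Dat

variable (P : Dat) (τ u κ μ : ℚ)

noncomputable def par : Par :=
  ⟨6, P.l0, P.D1, 1 / 5000, ⟨P.k1, 0, 0, 0⟩, ⟨1, 0, 0, 0⟩, P.k4.r, P.k5.r, P.W.r⟩

def X : List ℚ := [0, 1]
def E : List ℚ := [1 / 6, -1 / 6]
def XE : List ℚ := mul X E
def XX : List ℚ := mul X X
def A : ℚ := P.k1 * κ - 1 / 5000
def B : ℚ := 6 / 5 - 1 / 5000
def rho : List ℚ := add (sm P.D1 E) (mul X P.W.l)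
def g : List ℚ := add P.k4.l' (sm u P.k5.l')
def p13 : List ℚ := add P.W.l (sm 6 (mul XE P.W.l'))
def p23 : List ℚ := add [P.D1] (sm (-6) (mul XX P.W.l'))
def p34 : List ℚ :=
  add (add (sm (-P.D1) E) (sm 6 (mul (mul X XE) P.W.l'))) (sm (τ - 1) P.rho)
def p14 : List ℚ :=
  add (add [P.k1 * (τ - 1)] (add P.k4.l (sm (1 / 2) P.k5.l))) (sm 6 (mul XE (P.g u)))
def p24 : List ℚ := add (add (sm (2 + τ + P.l0) E) (sm (3 / 5 * (u - 1 / 6)) (mul X P.k5.l)))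
  (sm (-6) (mul (mul X XE) (P.g u)))
def m44 : List ℚ :=
  add (add (add (sm (-P.k1 - 1 / 5000) XX) (sm (-u - 1 / 5000) XE))
    (add (sm (2 * τ * P.l0 + τ / 5000) (mul E E)) (sm (2 + 2 * τ) (mul XE P.k4.l))))
  (add (add (sm 12 (mul (mul XE XE) (P.g u))) (sm (1 + (2 * τ - 4) * u) (mul XE P.k5.l)))
    (add (sm ((6 / 5 * μ - 8 / 15) / 4) (mul XX (mul P.k5.l P.k5.l))) (mul X P.rho)))
def ctt : List ℚ := add P.rho (add (sm (-1 / P.A κ) (mul X (mul P.p13 P.p13)))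
  (sm (-1 / B) (mul E (mul P.p23 P.p23))))
def c34 : List ℚ := add (P.p34 τ) (add (sm (-1 / P.A κ) (mul X (mul P.p13 (P.p14 τ u))))
  (sm (-1 / B) (mul P.p23 (P.p24 τ u))))
def cnn : List ℚ := add (P.m44 τ u μ)
  (add (sm (-1 / P.A κ) (mul XE (mul (P.p14 τ u) (P.p14 τ u))))
    (sm (-1 / B) (mul (P.p24 τ u) (P.p24 τ u))))
def dd : List ℚ := add (mul (P.ctt κ) (P.cnn τ u κ μ))
  (sm (-1) (mul E (mul (P.c34 τ u κ) (P.c34 τ u κ))))

def ok : Bool := decide (0 < P.A κ) && chk 8 (P.ctt κ) && chk 8 (P.cnn τ u κ μ)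
  && chk 8 (P.dd τ u κ μ)

def oks : Bool := P.ok τ 0 3 (1 / 36) && P.ok τ (1 / 5) (21 / 10) (-7 / 180)
  && P.ok τ (3 / 5) (77 / 50) (2 / 15) && P.ok τ (5 / 6) (4 / 3) (4 / 9)

/-- the form with the two convex functions of `u` replaced by numbers -/
noncomputable def F (τ u κ μ a y x k n t : ℝ) : ℝ :=
  P.k1 * (κ * x ^ 2 + 2 * (τ - 1) * a * y * n * x - a ^ 4 * n ^ 2)
  + (6 / 5 * k ^ 2 + (4 + 2 * τ) * y ^ 2 * n * k - a ^ 2 * y ^ 2 * u * n ^ 2)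
  + P.l0 * (2 * y ^ 2 * n * k + 2 * τ * y ^ 4 * n ^ 2)
  + P.k4.r.v (a ^ 2) * (2 * a * y * n * x + (2 + 2 * τ) * a ^ 2 * y ^ 2 * n ^ 2)
  + P.k4.r.dv (a ^ 2) * P.par.xi a y x k n * a ^ 2 * y * n
  + P.k5.r.v (a ^ 2) * (a * y * n * x + a ^ 2 * y ^ 2 * n ^ 2
      + (2 * τ - 4) * a ^ 2 * y ^ 2 * u * n ^ 2 + 6 / 5 * a ^ 2 * (u - 1 / 6) * n * k)
  + P.k5.r.dv (a ^ 2) * P.par.xi a y x k n * a ^ 2 * y * u * n
  + P.k5.r.v (a ^ 2) ^ 2 / 4 * a ^ 4 * (6 / 5 * μ - 8 / 15) * n ^ 2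
  + a ^ 2 * P.par.rho a y * n ^ 2 + t * P.par.dr τ a y x k n + P.par.rho a y * t ^ 2
  - 1 / 5000 * (x ^ 2 + k ^ 2 + (a ^ 2 * y ^ 2 + a ^ 4 - τ * y ^ 4) * n ^ 2)

theorem ev_X (x : ℝ) : ev X x = x := by simp [X, ev]

theorem F_eq {a y : ℝ} (hE : ev E (a ^ 2) = y ^ 2) (x k n t : ℝ) :
    P.F τ u κ μ a y x k n t = P.A κ * x ^ 2 + B * k ^ 2
      + 2 * a * ev P.p13 (a ^ 2) * x * t + 2 * a * y * ev (P.p14 τ u) (a ^ 2) * x * n
      + 2 * y * ev P.p23 (a ^ 2) * k * t + 2 * ev (P.p24 τ u) (a ^ 2) * k * n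
      + ev P.rho (a ^ 2) * t ^ 2 + 2 * y * ev (P.p34 τ) (a ^ 2) * t * n
      + ev (P.m44 τ u μ) (a ^ 2) * n ^ 2 := by
  simp only [F, A, B, p13, p14, p23, p24, p34, m44, rho, g, XE, XX, ev_add, ev_sm, ev_mul, ev_X, hE,
    Q4.ev_l, Q4.ev_l', ev_cons, ev_nil, par, Par.xi, Par.rho, Par.dr]
  push_cast
  ring

theorem ok_sound (h : P.ok τ u κ μ = true) {a y : ℝ} (hy : a ^ 2 + 6 * y ^ 2 = 1) (x k n t : ℝ) :
    0 ≤ P.F τ u κ μ a y x k n t := by
  have hE : ev E (a ^ 2) = y ^ 2 := by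
    simp only [E, ev]; push_cast; linarith
  have h0 : 0 ≤ a ^ 2 := sq_nonneg a
  have h1 : a ^ 2 ≤ 1 := by nlinarith [sq_nonneg y]
  simp only [ok, Bool.and_eq_true, decide_eq_true_eq] at h
  obtain ⟨⟨⟨hA, h2⟩, h3⟩, h4⟩ := h
  have hA' : (0 : ℝ) < P.A κ := by exact_mod_cast hA
  have hB : (0 : ℝ) < B := by simp only [B]; push_cast; norm_num
  have k2 := chk_sound _ _ h2 _ h0 h1
  have k3 := chk_sound _ _ h3 _ h0 h1
  have k4 := chk_sound _ _ h4 _ h0 h1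
  rw [F_eq P τ u κ μ hE]
  refine schur hA' hB k2 k3 k4 (c := ev (P.c34 τ u κ) (a ^ 2)) ?_ ?_ ?_ ?_
  · simp only [ctt, ev_add, ev_sm, ev_mul, ev_X, hE, Rat.cast_div, Rat.cast_neg, Rat.cast_one]
  · simp only [cnn, XE, ev_add, ev_sm, ev_mul, ev_X, hE, Rat.cast_div, Rat.cast_neg, Rat.cast_one]
  · simp only [c34, ev_add, ev_sm, ev_mul, ev_X, hE, Rat.cast_div, Rat.cast_neg, Rat.cast_one]
  · simp only [dd, ev_add, ev_sm, ev_mul, hE, Rat.cast_neg, Rat.cast_one]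

theorem oks_sound (hk : 0 ≤ P.k1) (h : P.oks τ = true) : P.par.Psd τ := by
  intro u a y x k n t h0 h1 hy
  simp only [oks, Bool.and_eq_true] at h
  obtain ⟨⟨⟨v0, v1⟩, v2⟩, v3⟩ := h
  have w0 := P.ok_sound _ _ _ _ v0 hy x k n t
  have w1 := P.ok_sound _ _ _ _ v1 hy x k n t
  have w2 := P.ok_sound _ _ _ _ v2 hy x k n t
  have w3 := P.ok_sound _ _ _ _ v3 hy x k n t
  have hk' : (0 : ℝ) ≤ P.k1 := by exact_mod_cast hk
  have e : ∀ u κ μ : ℝ, P.F τ u κ μ a y x k n t = P.F τ 0 0 0 a y x k n t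
      + (P.F τ 1 0 0 a y x k n t - P.F τ 0 0 0 a y x k n t) * u + P.k1 * x ^ 2 * κ
      + P.k5.r.v (a ^ 2) ^ 2 / 4 * a ^ 4 * (6 / 5) * n ^ 2 * μ := by
    intro u κ μ
    simp only [F]
    ring
  push_cast at w0 w1 w2 w3
  rw [e] at w0 w1 w2 w3
  have w := poly4 (by positivity) (by positivity) h0 h1 w0 w1 w2 w3
  rw [← e] at w
  have e2 : P.F τ u (6 / (2 + 3 * u)) ((u - 1 / 6) ^ 2) a y x k n t
      = P.par.q0 τ u a y x k n + t * P.par.dr τ a y x k n + P.par.rho a y * t ^ 2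
        - P.par.ep * (x ^ 2 + k ^ 2 + (a ^ 2 * y ^ 2 + a ^ 4 - τ * y ^ 4) * n ^ 2) := by
    simp only [F, Par.q0]
    simp only [par, Cub.v, Cub.dv]
    ring
  linarith

theorem OK_of (hk : 0 ≤ P.k1) {ta tb : ℚ} (ha : P.oks ta = true) (hb : P.oks tb = true) :
    P.par.OK ta tb where
  hc := by simp [par]
  he := by simp [par]
  h1 := fun x _ _ => by simpa [par, Cub.v] using hk
  h2 := fun x _ _ => by simp [par, Cub.v]
  ha := P.oks_sound _ hk ha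
  hb := P.oks_sound _ hk hb

end Dat

def q4 (a b c d : ℤ) : Q4 := ⟨a / 10000, b / 10000, c / 10000, d / 10000⟩

def d4 : Dat := ⟨-2, 0, 3222 / 10000, q4 3930 (-913) 4284 (-2654), q4 (-3464) (-2121) (-2209) 1904,
  q4 3200 1091 (-953) 410⟩
def d3 : Dat := ⟨-19494 / 10000, 112 / 10000, 2388 / 10000, q4 3083 (-552) 3681 (-2256),
  q4 (-3006) (-2088) (-2224) 2027, q4 2340 1086 (-1014) 404⟩
def d2 : Dat := ⟨-20260 / 10000, 302 / 10000, 1067 / 10000, q4 1683 836 128 (-114),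
  q4 (-2620) (-1268) (-1369) 1291, q4 1127 491 (-396) 91⟩
def d1 : Dat := ⟨-21219 / 10000, 529 / 10000, 335 / 10000, q4 (-617) 6867 (-10769) 5436,
  q4 (-2205) (-2965) 6044 (-2686), q4 1032 (-1423) 1686 (-877)⟩

theorem c4b : d4.oks 0 = true := by decide +kernel
theorem c4a : d4.oks (-1 / 80) = true := by decide +kernel
theorem c3b : d3.oks (-1 / 80) = true := by decide +kernel
theorem c3a : d3.oks (-7 / 200) = true := by decide +kernel
theorem c2b : d2.oks (-7 / 200) = true := by decide +kernel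
theorem c2a : d2.oks (-1 / 10) = true := by decide +kernel
theorem c1b : d1.oks (-1 / 10) = true := by decide +kernel
theorem c1a : d1.oks (-101 / 100) = true := by decide +kernel

end Vale.Agent.P134Q.Ct

namespace Vale.Agent.P134Q

open Ct

/-- **the four certificates** -/
theorem cert : CERT := by
  refine ⟨d1.par, d2.par, d3.par, d4.par, ((-101 / 100 : ℚ) : ℝ), ((-1 / 10 : ℚ) : ℝ),
    ((-7 / 200 : ℚ) : ℝ), ((-1 / 80 : ℚ) : ℝ), by norm_num, by norm_num, by norm_num, by norm_num,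
    by norm_num, d1.OK_of (by norm_num [d1]) c1a c1b, d2.OK_of (by norm_num [d2]) c2a c2b,
    d3.OK_of (by norm_num [d3]) c3a c3b, ?_, by simp [Dat.par, d4], by simp [Dat.par, d4]⟩
  simpa using d4.OK_of (by norm_num [d4]) c4a c4b

end Vale.Agent.P134Q
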