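import Mathlib

/-!
# P134Q: tangential calculus on a minimal hypersurface, the identity of Simons
-/

open Finset

namespace Vale.Agent.P134Q

/-- tangential derivatives `d i` in a commutative ring, with unit normal `n` -/
structure TC (ι R : Type) [Fintype ι] [CommRing R] where
  d : ι → R →+ R
  n : ι → R
  lb : ∀ i f g, d i (f * g) = d i f * g + f * d i g
  un : ∑ i, n i * n i = 1
  nd : ∀ f, ∑ i, n i * d i f = 0
  sy : ∀ i j, d i (n j) = d j (n i)
  cm : ∀ k i f, d k (d i f) = d i (d k f) + n k * ∑ l, d i (n l) * d l f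
    - n i * ∑ l, d k (n l) * d l f
  mn : ∑ i, d i (n i) = 0

namespace TC

variable {ι R : Type} [Fintype ι] [CommRing R] (D : TC ι R)

/-- the second fundamental form -/
def A (i j : ι) : R := D.d i (D.n j)

theorem d_one (i : ι) : D.d i 1 = 0 := by
  have h := D.lb i 1 1
  simp only [mul_one, one_mul] at h
  linear_combination -h

theorem d_nat (i : ι) (m : ℕ) : D.d i (m : R) = 0 := by
  induction m with
  | zero => simp
  | succ m ih => rw [Nat.cast_succ, map_add, ih, d_one, add_zero]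

theorem A_sym (i j : ι) : D.A i j = D.A j i := D.sy i j

theorem nA (j : ι) : ∑ i, D.n i * D.A i j = 0 := D.nd _

theorem An (i : ι) : ∑ j, D.A i j * D.n j = 0 := by
  rw [← D.nA i]
  exact sum_congr rfl fun j _ => by rw [A_sym D i j, mul_comm]

theorem trA : ∑ k, D.A k k = 0 := D.mn

theorem comm (k i : ι) (f : R) : D.d k (D.d i f) = D.d i (D.d k f)
    + D.n k * ∑ l, D.A i l * D.d l f - D.n i * ∑ l, D.A k l * D.d l f := D.cm k i f

/-- the square of `A` -/
def B (i j : ι) : R := ∑ l, D.A i l * D.A l j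

theorem B_sym (i j : ι) : D.B i j = D.B j i :=
  sum_congr rfl fun l _ => by rw [A_sym D i l, A_sym D l j]; ring

theorem Bn (i : ι) : ∑ j, D.B i j * D.n j = 0 := by
  simp only [B, sum_mul]
  rw [sum_comm]
  refine sum_eq_zero fun l _ => ?_
  simp only [mul_assoc]
  rw [← mul_sum, An, mul_zero]

/-- the squared norm of `A` -/
def s : R := ∑ i, ∑ j, D.A i j * D.A i j

theorem trB : ∑ k, D.B k k = D.s :=
  sum_congr rfl fun k _ => sum_congr rfl fun l _ => by rw [A_sym D l k]

theorem cod (k i j : ι) :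
    D.d k (D.A i j) = D.d i (D.A k j) + D.n k * D.B i j - D.n i * D.B k j :=
  D.comm k i (D.n j)

theorem dAn (k i : ι) : ∑ j, D.d k (D.A i j) * D.n j = - D.B k i := by
  have h := congrArg (D.d k) (D.An i)
  rw [map_sum, map_zero] at h
  have h2 : ∑ j, D.d k (D.A i j * D.n j) = ∑ j, D.d k (D.A i j) * D.n j + D.B k i := by
    rw [B, ← sum_add_distrib]
    exact sum_congr rfl fun j _ => by
      rw [D.lb, A_sym D j i, show D.d k (D.n j) = D.A k j from rfl]; ring
  linear_combination h - h2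

theorem dtr (k : ι) : ∑ i, D.d k (D.A i i) = 0 := by rw [← map_sum, trA, map_zero]

theorem divA (j : ι) : ∑ k, D.d k (D.A k j) = - (D.n j * D.s) := by
  have h1 : ∀ k, D.d k (D.A k j) = D.d j (D.A k k) + D.B j k * D.n k - D.n j * D.B k k :=
    fun k => by rw [A_sym D k j, cod]; ring
  simp only [h1, sum_sub_distrib, sum_add_distrib, ← mul_sum]
  rw [Bn, trB, dtr]; ring

theorem lapA (i j : ι) : ∑ k, D.d k (D.d k (D.A i j)) = - (D.s * D.A i j)
    - 2 * ∑ l, D.A i l * D.B l j - D.n j * D.d i D.s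
    - D.n i * (∑ k, D.d k (D.B k j) + ∑ k, ∑ l, D.A k l * D.d l (D.A k j)) := by
  have h1 : ∀ k, D.d k (D.d k (D.A i j)) = D.d i (D.d k (D.A k j))
      + D.n k * ∑ l, D.A i l * D.d l (D.A k j) - D.n i * ∑ l, D.A k l * D.d l (D.A k j)
      + D.A k k * D.B i j + D.n k * D.d k (D.B i j) - D.A i k * D.B k j
      - D.n i * D.d k (D.B k j) := fun k => by
    rw [cod D k i j, map_sub, map_add, D.lb, D.lb, comm D k i, A_sym D i k,
      show D.d k (D.n k) = D.A k k from rfl, show D.d k (D.n i) = D.A k i from rfl]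
    ring
  have h2 : ∑ k, D.n k * ∑ l, D.A i l * D.d l (D.A k j) = - ∑ l, D.A i l * D.B l j := by
    simp only [mul_sum]
    rw [sum_comm, ← sum_neg_distrib]
    refine sum_congr rfl fun l _ => ?_
    have : ∑ k, D.n k * (D.A i l * D.d l (D.A k j))
        = D.A i l * ∑ k, D.d l (D.A j k) * D.n k := by
      rw [mul_sum]
      exact sum_congr rfl fun k _ => by rw [A_sym D j k]; ring
    rw [this, dAn]; ring
  have h3 : ∑ k, D.d i (D.d k (D.A k j)) = - (D.A i j * D.s) - D.n j * D.d i D.s := by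
    rw [← map_sum, divA, map_neg, D.lb, show D.d i (D.n j) = D.A i j from rfl]; ring
  simp only [h1, sum_sub_distrib, sum_add_distrib]
  rw [h2, h3, D.nd, ← sum_mul, ← mul_sum, ← mul_sum, trA]
  ring

/-- half the gradient of `s` -/
def Y (k : ι) : R := ∑ i, ∑ j, D.A i j * D.d k (D.A i j)

theorem ds (k : ι) : D.d k D.s = 2 * D.Y k := by
  simp only [s, Y, map_sum, mul_sum]
  exact sum_congr rfl fun i _ => sum_congr rfl fun j _ => by rw [D.lb]; ring

theorem AAB : ∑ i, ∑ j, D.A i j * ∑ l, D.A i l * D.B l j = ∑ i, ∑ j, D.B i j * D.B i j := by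
  have h : ∀ j, ∑ i, D.A i j * ∑ l, D.A i l * D.B l j = ∑ l, D.B l j * D.B l j := fun j => by
    simp only [mul_sum]
    rw [sum_comm]
    refine sum_congr rfl fun l _ => ?_
    conv_rhs => rw [B, sum_mul]
    refine sum_congr rfl fun i _ => ?_
    rw [A_sym D l i, show D.B l j = ∑ m, D.A l m * D.A m j from rfl]; ring
  rw [sum_comm]
  simp only [h]
  rw [sum_comm]

theorem AnW (W : ι → R) : ∑ i, ∑ j, D.A i j * (D.n j * W i) = 0 := sum_eq_zero fun i _ => by
  simp only [← mul_assoc]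
  rw [← sum_mul, An, zero_mul]

theorem nAW (W : ι → R) : ∑ i, ∑ j, D.A i j * (D.n i * W j) = 0 := by
  rw [sum_comm, ← D.AnW W]
  exact sum_congr rfl fun i _ => sum_congr rfl fun j _ => by rw [A_sym]

theorem divY0 : ∑ k, D.d k (D.Y k) = ∑ k, ∑ i, ∑ j, D.d k (D.A i j) * D.d k (D.A i j)
    - D.s * D.s - 2 * ∑ i, ∑ j, D.B i j * D.B i j := by
  have h1 : ∀ k, D.d k (D.Y k) = ∑ i, ∑ j, D.A i j * D.d k (D.d k (D.A i j))
      + ∑ i, ∑ j, D.d k (D.A i j) * D.d k (D.A i j) := fun k => by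
    rw [Y, map_sum, ← sum_add_distrib]
    refine sum_congr rfl fun i _ => ?_
    rw [map_sum, ← sum_add_distrib]
    exact sum_congr rfl fun j _ => by rw [D.lb]; ring
  have h2 : ∑ k, ∑ i, ∑ j, D.A i j * D.d k (D.d k (D.A i j))
      = ∑ i, ∑ j, D.A i j * ∑ k, D.d k (D.d k (D.A i j)) := by
    rw [sum_comm]
    refine sum_congr rfl fun i _ => ?_
    rw [sum_comm]
    exact sum_congr rfl fun j _ => by rw [mul_sum]
  have h5 : ∑ i, ∑ j, D.A i j * -(D.s * D.A i j) = - (D.s * D.s) := by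
    conv_rhs => rw [show D.s * D.s = D.s * ∑ i, ∑ j, D.A i j * D.A i j from rfl]
    simp only [mul_sum, ← sum_neg_distrib]
    exact sum_congr rfl fun i _ => sum_congr rfl fun j _ => by ring
  have h7 : ∑ i, ∑ j, D.A i j * (2 * ∑ l, D.A i l * D.B l j)
      = 2 * ∑ i, ∑ j, D.B i j * D.B i j := by
    rw [← AAB, mul_sum]
    refine sum_congr rfl fun i _ => ?_
    rw [mul_sum]
    exact sum_congr rfl fun j _ => by ring
  simp only [h1, sum_add_distrib]
  rw [h2]
  simp only [lapA, mul_sub, sum_sub_distrib]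
  rw [AnW, nAW, h5, h7]
  ring

/-- the covariant derivative of `A` -/
def T (k i j : ι) : R := D.d k (D.A i j) + D.n i * D.B k j + D.n j * D.B k i

theorem T_s1 (k i j : ι) : D.T k i j = D.T k j i := by rw [T, T, A_sym D i j]; ring

theorem T_s2 (k i j : ι) : D.T k i j = D.T i k j := by
  rw [T, T, cod D k i j, B_sym D i k]; ring

theorem Tn (k i : ι) : ∑ j, D.T k i j * D.n j = 0 := by
  have : ∀ j, D.T k i j * D.n j = D.d k (D.A i j) * D.n j + D.n i * (D.B k j * D.n j)
      + D.n j * D.n j * D.B k i := fun j => by rw [T]; ring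
  simp only [this, sum_add_distrib, ← mul_sum, ← sum_mul, dAn, Bn, D.un]; ring

theorem trT (k : ι) : ∑ i, D.T k i i = 0 := by
  have : ∀ i, D.T k i i = D.d k (D.A i i) + 2 * (D.B k i * D.n i) := fun i => by rw [T]; ring
  simp only [this, sum_add_distrib, ← mul_sum, dtr, Bn]; ring

theorem Y_eq (k : ι) : D.Y k = ∑ i, ∑ j, D.A i j * D.T k i j := by
  simp only [T, mul_add, sum_add_distrib, AnW, nAW, add_zero, Y]

theorem sqT : ∑ k, ∑ i, ∑ j, D.d k (D.A i j) * D.d k (D.A i j)
    = ∑ k, ∑ i, ∑ j, D.T k i j * D.T k i j + 2 * ∑ i, ∑ j, D.B i j * D.B i j := by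
  rw [mul_sum, ← sum_add_distrib]
  refine sum_congr rfl fun k _ => ?_
  have h : ∀ i j, D.d k (D.A i j) * D.d k (D.A i j) = D.T k i j * D.T k i j
      - 2 * (D.T k j i * D.n i * D.B k j) - 2 * (D.T k i j * D.n j * D.B k i)
      + D.n i * D.n i * (D.B k j * D.B k j) + D.B k i * D.B k i * (D.n j * D.n j)
      + 2 * (D.B k i * D.n i) * (D.B k j * D.n j) := fun i j => by
    rw [T_s1 D k j i, T]; ring
  have h1 : ∑ i, ∑ j, D.T k j i * D.n i * D.B k j = 0 := by
    rw [sum_comm]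
    exact sum_eq_zero fun j _ => by rw [← sum_mul, Tn, zero_mul]
  simp only [h, sum_add_distrib, sum_sub_distrib, ← mul_sum]
  rw [h1]
  simp only [← mul_sum, ← sum_mul, Tn, Bn, D.un, zero_mul, sum_const_zero, mul_one]
  ring

/-- the identity of Simons -/
theorem divY : ∑ k, D.d k (D.Y k) = ∑ k, ∑ i, ∑ j, D.T k i j * D.T k i j - D.s * D.s := by
  rw [divY0, sqT]; ring

theorem nY : ∑ k, D.n k * D.Y k = 0 := by
  simp only [Y, mul_sum]
  rw [sum_comm]
  refine sum_eq_zero fun i _ => ?_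
  rw [sum_comm]
  refine sum_eq_zero fun j _ => ?_
  have : ∀ k, D.n k * (D.A i j * D.d k (D.A i j)) = D.A i j * (D.n k * D.d k (D.A i j)) :=
    fun k => by ring
  simp only [this, ← mul_sum, D.nd, mul_zero]

/-- the contracted identity of Codazzi -/
theorem divB (j : ι) :
    ∑ i, D.d i (D.B i j) = D.Y j - D.n j * ∑ i, ∑ l, D.A i l * D.B i l := by
  have h1 : ∀ i, D.d i (D.B i j) = ∑ l, D.d i (D.A i l) * D.A l j
      + ∑ l, (D.A i l * D.T j i l - D.A i l * (D.n l * D.B i j)
        - D.n j * (D.A i l * D.B i l)) := fun i => by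
    rw [← sum_add_distrib]
    refine (map_sum (D.d i) _ _).trans (sum_congr rfl fun l _ => ?_)
    rw [D.lb, T_s2 D j i l, T_s1 D i j l, T]; ring
  have h2 : ∑ i, ∑ l, D.d i (D.A i l) * D.A l j = 0 := by
    rw [sum_comm]
    have : ∀ l, ∑ i, D.d i (D.A i l) * D.A l j = - D.s * (D.n l * D.A l j) := fun l => by
      rw [← sum_mul, divA]; ring
    simp only [this, ← mul_sum, nA, mul_zero]
  simp only [h1, sum_add_distrib, sum_sub_distrib, ← mul_sum]
  rw [h2, ← Y_eq, D.AnW fun i => D.B i j]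
  ring

end TC

end Vale.Agent.P134Q
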