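import Mathlib

/-!
# P134Q: the certificate for stable minimal hypersurfaces of dimension six, scalar form

`l = - (log G) / 4`, `z = D l`, `r = |z|^2 = y^2`, `s = |A|^2 = a^2`, `ξ = s / (s + c r)`.
The scalar form is normalised by `s + c r = 1`, so `ξ = a^2`.  In an eigenbasis of `A` the numbers
`x, k, n, t` are the components of `D |A|`, of `E n`, of the unit vector `n` with `z = y n` and of
the dual variable of the stability term; `u` is the eigenvalue of `A^2 / s`.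
-/

noncomputable section

namespace Vale.Agent.P134Q

/-- a cubic polynomial -/
structure Cub where
  a : ℝ
  b : ℝ
  c : ℝ
  d : ℝ

/-- its value -/
def Cub.v (p : Cub) (x : ℝ) : ℝ := p.a + p.b * x + p.c * x ^ 2 + p.d * x ^ 3

/-- the value of its derivative -/
def Cub.dv (p : Cub) (x : ℝ) : ℝ := p.b + 2 * p.c * x + 3 * p.d * x ^ 2

/-- the multipliers: the field is `k1 Y + k2 K + (l0 r + k4 s) z + k5 A^2 z` with `Y = D s / 2`,
`K = D r / 2 + r z`, the squared test function is `D1 r + s W`, all times `exp (2 (τ - 1) l)` -/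
structure Par where
  c : ℝ
  l0 : ℝ
  D1 : ℝ
  ep : ℝ
  k1 : Cub
  k2 : Cub
  k4 : Cub
  k5 : Cub
  W : Cub

namespace Par

variable (P : Par)

/-- the component of the gradient of `ξ` -/
def xi (a y x k n : ℝ) : ℝ := 2 * P.c * a * y * (y * x - a * k + a * y ^ 2 * n)

/-- the squared test function -/
def rho (a y : ℝ) : ℝ := P.D1 * y ^ 2 + a ^ 2 * P.W.v (a ^ 2)

/-- the component of the gradient of the squared test function -/
def dr (τ a y x k n : ℝ) : ℝ := 2 * P.D1 * y * (k - y ^ 2 * n) + 2 * P.W.v (a ^ 2) * a * x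
  + a ^ 2 * P.W.dv (a ^ 2) * P.xi a y x k n + 2 * (τ - 1) * P.rho a y * y * n

/-- the lower bound for the divergence of the field plus the potential term -/
def q0 (τ u a y x k n : ℝ) : ℝ :=
  P.k1.v (a ^ 2) * (6 * x ^ 2 / (2 + 3 * u) + 2 * (τ - 1) * a * y * n * x - a ^ 4 * n ^ 2)
  + P.k1.dv (a ^ 2) * P.xi a y x k n * a * x
  + P.k2.v (a ^ 2) * (6 / 5 * k ^ 2 + (4 + 2 * τ) * y ^ 2 * n * k - a ^ 2 * y ^ 2 * u * n ^ 2)
  + P.k2.dv (a ^ 2) * P.xi a y x k n * y * k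
  + P.l0 * (2 * y ^ 2 * n * k + 2 * τ * y ^ 4 * n ^ 2)
  + P.k4.v (a ^ 2) * (2 * a * y * n * x + (2 + 2 * τ) * a ^ 2 * y ^ 2 * n ^ 2)
  + P.k4.dv (a ^ 2) * P.xi a y x k n * a ^ 2 * y * n
  + P.k5.v (a ^ 2) * (a * y * n * x + a ^ 2 * y ^ 2 * n ^ 2
      + (2 * τ - 4) * a ^ 2 * y ^ 2 * u * n ^ 2 + 6 / 5 * a ^ 2 * (u - 1 / 6) * n * k)
  + P.k5.dv (a ^ 2) * P.xi a y x k n * a ^ 2 * y * u * n
  + P.k5.v (a ^ 2) ^ 2 / (4 * P.k2.v (a ^ 2)) * a ^ 4 * (6 / 5 * (u - 1 / 6) ^ 2 - 8 / 15) * n ^ 2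
  + a ^ 2 * P.rho a y * n ^ 2

/-- the scalar inequality at the exponent `τ` -/
def Psd (τ : ℝ) : Prop := ∀ u a y x k n t : ℝ, 0 ≤ u → u ≤ 5 / 6 → a ^ 2 + P.c * y ^ 2 = 1 →
  P.ep * (x ^ 2 + k ^ 2 + (a ^ 2 * y ^ 2 + a ^ 4 - τ * y ^ 4) * n ^ 2)
    ≤ P.q0 τ u a y x k n + t * P.dr τ a y x k n + P.rho a y * t ^ 2

/-- a certificate for the exponents between `ta` and `tb` -/
structure OK (ta tb : ℝ) : Prop where
  hc : 0 < P.c
  he : 0 < P.ep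
  h1 : ∀ x, 0 ≤ x → x ≤ 1 → 0 ≤ P.k1.v x
  h2 : ∀ x, 0 ≤ x → x ≤ 1 → 0 < P.k2.v x
  ha : P.Psd ta
  hb : P.Psd tb

end Par

/-- **CERT**: four certificates lead from an exponent below `-1` to the exponent `0` -/
def CERT : Prop := ∃ (P1 P2 P3 P4 : Par) (t0 t1 t2 t3 : ℝ), t0 < -1 ∧ t0 < t1 ∧ t1 < t2 ∧
  t2 < t3 ∧ t3 < 0 ∧ P1.OK t0 t1 ∧ P2.OK t1 t2 ∧ P3.OK t2 t3 ∧ P4.OK t3 0 ∧ P4.D1 = 0 ∧ P4.l0 < 0

end Vale.Agent.P134Q
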