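import Vale.Agent.P134I.Kato

/-!
# P134Q: an eigenbasis of a symmetric array and the bound for the fourth powers
-/

open Finset

noncomputable section

namespace Vale.Agent.P134Q

variable {ι : Type} [Fintype ι] [DecidableEq ι]

/-- an orthonormal eigenbasis -/
structure EB (A : ι → ι → ℝ) where
  O : ι → ι → ℝ
  lam : ι → ℝ
  o1 : ∀ i j, ∑ a, O a i * O a j = if i = j then 1 else 0
  o2 : ∀ a b, ∑ i, O a i * O b i = if a = b then 1 else 0
  ev : ∀ a i, ∑ b, A a b * O b i = lam i * O a i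

theorem exists_EB {A : ι → ι → ℝ} (hA : ∀ i j, A i j = A j i) : Nonempty (EB A) := by
  have hH : (Matrix.of A).IsHermitian := by
    ext i j
    simp [Matrix.conjTranspose_apply, hA j i]
  let U : Matrix ι ι ℝ := (hH.eigenvectorUnitary : Matrix ι ι ℝ)
  have h1 : star U * U = 1 := Unitary.coe_star_mul_self _
  have h2 : U * star U = 1 := Unitary.coe_mul_star_self _
  refine ⟨⟨fun a i => U a i, hH.eigenvalues, fun i j => ?_, fun a b => ?_, fun a i => ?_⟩⟩
  · have := congrFun (congrFun h1 i) j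
    simpa [Matrix.mul_apply, Matrix.one_apply, Matrix.star_apply] using this
  · have := congrFun (congrFun h2 a) b
    simpa [Matrix.mul_apply, Matrix.one_apply, Matrix.star_apply] using this
  · have := congrFun (hH.mulVec_eigenvectorBasis i) a
    simpa [Matrix.mulVec, dotProduct, U] using this

namespace EB

variable {A : ι → ι → ℝ} (e : EB A)

/-- the components in the eigenbasis -/
def h (v : ι → ℝ) (i : ι) : ℝ := ∑ a, e.O a i * v a

theorem par (v w : ι → ℝ) : ∑ a, v a * w a = ∑ i, e.h v i * e.h w i := by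
  have : ∀ i, e.h v i * e.h w i = ∑ a, ∑ b, v a * w b * (e.O a i * e.O b i) := fun i => by
    rw [h, h, sum_mul_sum]
    exact sum_congr rfl fun a _ => sum_congr rfl fun b _ => by ring
  simp only [this]
  rw [sum_comm]
  refine sum_congr rfl fun a _ => ?_
  rw [sum_comm]
  simp only [← mul_sum, e.o2, mul_ite, mul_one, mul_zero, sum_ite_eq, mem_univ, if_true]

theorem h_inv (w : ι → ℝ) (i : ι) : e.h (fun a => ∑ j, e.O a j * w j) i = w i := by
  have : ∀ a, e.O a i * ∑ j, e.O a j * w j = ∑ j, e.O a i * e.O a j * w j := fun a => by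
    rw [mul_sum]
    exact sum_congr rfl fun j _ => by ring
  simp only [h, this]
  rw [sum_comm]
  simp only [← sum_mul, e.o1, ite_mul, one_mul, zero_mul, sum_ite_eq, mem_univ, if_true]

theorem h_lin (α β γ : ℝ) (u v w : ι → ℝ) (i : ι) :
    e.h (fun a => α * u a + β * v a + γ * w a) i = α * e.h u i + β * e.h v i + γ * e.h w i := by
  simp only [h, mul_sum, ← sum_add_distrib]
  exact sum_congr rfl fun a _ => by ring

theorem h_smul (α : ℝ) (u : ι → ℝ) (i : ι) : e.h (fun a => α * u a) i = α * e.h u i := by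
  simp only [h, mul_sum]
  exact sum_congr rfl fun a _ => by ring

variable (hA : ∀ i j, A i j = A j i)

include hA

theorem h_A (v : ι → ℝ) (i : ι) : e.h (fun a => ∑ b, A a b * v b) i = e.lam i * e.h v i := by
  simp only [h, mul_sum]
  rw [sum_comm]
  refine sum_congr rfl fun b _ => ?_
  have : ∀ a, e.O a i * (A a b * v b) = A b a * e.O a i * v b := fun a => by rw [hA a b]; ring
  simp only [this, ← sum_mul, e.ev]
  ring

omit [DecidableEq ι] hA in
theorem sq_mul (v : ι → ℝ) (a : ι) :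
    ∑ b, (∑ l, A a l * A l b) * v b = ∑ l, A a l * ∑ b, A l b * v b := by
  simp only [sum_mul, mul_sum]
  rw [sum_comm]
  exact sum_congr rfl fun l _ => sum_congr rfl fun b _ => by ring

theorem h_B (v : ι → ℝ) (i : ι) :
    e.h (fun a => ∑ b, (∑ l, A a l * A l b) * v b) i = e.lam i ^ 2 * e.h v i := by
  simp only [sq_mul]
  rw [e.h_A hA, e.h_A hA]; ring

omit hA in
theorem h_row (a i : ι) : e.h (A a) i = e.lam i * e.O a i := by
  rw [← e.ev, h]
  exact sum_congr rfl fun b _ => mul_comm _ _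

omit hA in
theorem col (i : ι) : ∑ a, e.O a i * e.O a i = 1 := by rw [e.o1, if_pos rfl]

omit hA in
theorem sq2 : ∑ a, ∑ b, A a b * A a b = ∑ i, e.lam i ^ 2 := by
  simp only [fun a => e.par (A a) (A a), e.h_row]
  rw [sum_comm]
  refine sum_congr rfl fun i _ => ?_
  have : ∀ a, e.lam i * e.O a i * (e.lam i * e.O a i) = e.lam i ^ 2 * (e.O a i * e.O a i) :=
    fun a => by ring
  simp only [this, ← mul_sum, e.col, mul_one]

theorem sq4 : ∑ a, ∑ b, (∑ l, A a l * A l b) * (∑ l, A a l * A l b) = ∑ i, e.lam i ^ 4 := by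
  have h1 : ∀ a i, e.h (fun b => ∑ l, A a l * A l b) i = e.lam i ^ 2 * e.O a i := fun a i => by
    have : ∀ b, ∑ l, A a l * A l b = ∑ l, A b l * A a l := fun b =>
      sum_congr rfl fun l _ => by rw [hA l b, mul_comm]
    simp only [this]
    rw [e.h_A hA, e.h_row]; ring
  simp only [fun a => e.par (fun b => ∑ l, A a l * A l b) (fun b => ∑ l, A a l * A l b), h1]
  rw [sum_comm]
  refine sum_congr rfl fun i _ => ?_
  have : ∀ a, e.lam i ^ 2 * e.O a i * (e.lam i ^ 2 * e.O a i)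
      = e.lam i ^ 4 * (e.O a i * e.O a i) := fun a => by ring
  simp only [this, ← mul_sum, e.col, mul_one]

omit hA in
theorem tr : ∑ a, A a a = ∑ i, e.lam i := by
  have h1 : ∀ a, A a a = ∑ i, e.lam i * (e.O a i * e.O a i) := fun a => by
    have h2 : A a a = ∑ b, A a b * ∑ i, e.O a i * e.O b i := by
      simp only [e.o2, mul_ite, mul_one, mul_zero, sum_ite_eq, mem_univ, if_true]
    rw [h2]
    simp only [mul_sum]
    rw [sum_comm]
    refine sum_congr rfl fun i _ => ?_
    have : ∀ b, A a b * (e.O a i * e.O b i) = e.O a i * (A a b * e.O b i) := fun b => by ring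
    simp only [this, ← mul_sum, e.ev]
    ring
  simp only [h1]
  rw [sum_comm]
  simp only [← mul_sum, e.col, mul_one]

end EB

omit [DecidableEq ι] in
theorem quart0 (h7 : Fintype.card ι = 7) (lam ν : ι → ℝ) (q : ℝ)
    (h0 : ∑ i, lam i = 0) (h2 : ∑ i, lam i ^ 2 = 30 * q ^ 2) (hν : ∑ i, ν i * ν i = 1)
    (hz : ∀ i, lam i * ν i = 0) (hu : ∀ i, lam i ≤ 5 * q) (hl : ∀ i, - (3 * q) ≤ lam i) :
    ∑ i, lam i ^ 4 ≤ 630 * q ^ 4 := by
  have h1 : ∀ i, lam i ^ 4 ≤ 18 * q ^ 2 * lam i ^ 2 + 32 * q ^ 3 * lam i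
      + 15 * q ^ 4 * (1 - ν i * ν i) := fun i => by
    rcases mul_eq_zero.1 (hz i) with h | h
    · have : ν i * ν i ≤ ∑ j, ν j * ν j :=
        single_le_sum (f := fun j => ν j * ν j) (fun j _ => mul_self_nonneg _) (mem_univ i)
      have : 0 ≤ 15 * q ^ 4 * (1 - ν i * ν i) := mul_nonneg (by positivity) (by linarith)
      rw [h]; linarith
    · have := mul_nonneg (mul_nonneg (sub_nonneg.2 (hu i)) (sub_nonneg.2 (hl i)))
        (sq_nonneg (lam i + q))
      rw [h]; nlinarith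
  refine (sum_le_sum fun i _ => h1 i).trans (le_of_eq ?_)
  simp only [sum_add_distrib, ← mul_sum, sum_sub_distrib, h0, h2, hν, sum_const, card_univ, h7]
  norm_num
  ring

theorem quart (h7 : Fintype.card ι = 7) (lam ν : ι → ℝ) (s : ℝ)
    (h0 : ∑ i, lam i = 0) (h2 : ∑ i, lam i ^ 2 = s) (hν : ∑ i, ν i * ν i = 1)
    (hz : ∀ i, lam i * ν i = 0) (hu : ∀ i, 6 * lam i ^ 2 ≤ 5 * s) :
    ∑ i, lam i ^ 4 ≤ 7 / 10 * s ^ 2 := by
  have hs : 0 ≤ s := h2 ▸ sum_nonneg fun i _ => sq_nonneg _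
  obtain ⟨q, hq, rfl⟩ : ∃ q, 0 ≤ q ∧ s = 30 * q ^ 2 :=
    ⟨√(s / 30), Real.sqrt_nonneg _, by rw [Real.sq_sqrt (by positivity)]; ring⟩
  have hb : ∀ i, |lam i| ≤ 5 * q := fun i =>
    abs_le_of_sq_le_sq' (by nlinarith [hu i]) (by positivity) |> abs_le.2
  rw [show 7 / 10 * (30 * q ^ 2) ^ 2 = 630 * q ^ 4 by ring]
  by_cases ha : ∀ i, - (3 * q) ≤ lam i
  · exact quart0 h7 lam ν q h0 h2 hν hz (fun i => (abs_le.1 (hb i)).2) ha
  by_cases hc : ∀ i, lam i ≤ 3 * q
  · have := quart0 h7 (fun i => - lam i) ν q (by rw [sum_neg_distrib, h0, neg_zero])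
      (by simpa only [neg_sq] using h2) hν (fun i => by rw [neg_mul, hz, neg_zero])
      (fun i => by linarith [(abs_le.1 (hb i)).1]) (fun i => by linarith [hc i])
    simpa only [show ∀ x : ℝ, (-x) ^ 4 = x ^ 4 from fun x => by ring] using this
  push Not at ha hc
  obtain ⟨i, hi⟩ := ha
  obtain ⟨j, hj⟩ := hc
  have hp : ∀ a b, a ≠ b → lam a ^ 2 + lam b ^ 2 ≤ 30 * q ^ 2 := fun a b hab => by
    rw [← h2, ← sum_pair (f := fun k => lam k ^ 2) hab]
    exact sum_le_sum_of_subset_of_nonneg (subset_univ _) fun k _ _ => sq_nonneg _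
  have hm : ∀ p, lam p ^ 2 ≤ 21 * q ^ 2 := fun p => by
    by_cases h : p = i
    · have := hp p j (by rintro rfl; rw [h] at hj; linarith)
      nlinarith
    · have := hp p i h
      nlinarith
  calc ∑ p, lam p ^ 4 ≤ ∑ p, 21 * q ^ 2 * lam p ^ 2 := sum_le_sum fun p _ => by
        nlinarith [mul_le_mul_of_nonneg_right (hm p) (sq_nonneg (lam p))]
    _ = 630 * q ^ 4 := by rw [← mul_sum, h2]; ring

end Vale.Agent.P134Q
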