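import Vale.Agent.P134Q.Defs

/-!
# P134Q: the scalar inequality in homogeneous form and for the exponents of an interval
-/

noncomputable section

namespace Vale.Agent.P134Q

namespace Par

variable {P : Par}

theorem Psd.rho_nonneg {τ : ℝ} (h : P.Psd τ) {a y : ℝ} (h1 : a ^ 2 + P.c * y ^ 2 = 1) :
    0 ≤ P.rho a y := by
  have := h 0 a y 0 0 0 1 le_rfl (by norm_num) h1
  simpa [q0, dr, xi] using this

theorem psd_mid {ta tb τ : ℝ} (ha : P.Psd ta) (hb : P.Psd tb) (h1 : ta ≤ τ) (h2 : τ ≤ tb) :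
    P.Psd τ := by
  intro u a y x k n t hu0 hu1 hs
  have e1 := ha u a y x k n t hu0 hu1 hs
  have e2 := hb u a y x k n t hu0 hu1 hs
  rcases (h1.trans h2).eq_or_lt with h | h
  · rwa [show τ = ta by linarith]
  obtain ⟨θ, h3, h4, rfl⟩ : ∃ θ, 0 ≤ θ ∧ θ ≤ 1 ∧ τ = ta + θ * (tb - ta) :=
    ⟨(τ - ta) / (tb - ta), div_nonneg (by linarith) (by linarith),
      (div_le_one (by linarith)).2 (by linarith), by
        rw [div_mul_cancel₀ _ (by linarith)]; ring⟩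
  have e3 := add_le_add (mul_le_mul_of_nonneg_left e1 (sub_nonneg.2 h4))
    (mul_le_mul_of_nonneg_left e2 h3)
  refine le_trans (le_of_eq ?_) (e3.trans (le_of_eq ?_))
  · ring
  · simp only [q0, dr]; ring

theorem OK.psd {ta tb τ : ℝ} (h : P.OK ta tb) (h1 : ta ≤ τ) (h2 : τ ≤ tb) : P.Psd τ :=
  psd_mid h.ha h.hb h1 h2

theorem Psd.hom {τ : ℝ} (h : P.Psd τ) {u a y x k n t s r ξ Ξ ρ Y K z μ : ℝ} (hu0 : 0 ≤ u)
    (hu1 : u ≤ 5 / 6) (hs : s = a ^ 2) (hr : r = y ^ 2) (hσ : 0 < s + P.c * r)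
    (hξ : ξ = s / (s + P.c * r)) (hY : Y = a * x) (hK : K = y * k) (hz : z = y * n)
    (hμ : μ = s * u) (hρ : ρ = P.D1 * r + s * P.W.v ξ)
    (hΞ : Ξ = 2 * P.c / (s + P.c * r) ^ 2 * (r * Y - s * K + s * r * z)) :
    P.ep * (x ^ 2 + k ^ 2 + (s * r + s ^ 2 - τ * r ^ 2) * n ^ 2)
      ≤ P.k1.v ξ * (6 * x ^ 2 / (2 + 3 * u))
        + (P.k2.v ξ * (6 / 5 * k ^ 2) + P.k5.v ξ * (6 / 5 * ((μ - s / 6) * n * k))
          + P.k5.v ξ ^ 2 / (4 * P.k2.v ξ)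
            * (6 / 5 * ((μ - s / 6) * n) ^ 2 - 8 / 15 * s ^ 2 * n ^ 2))
        + (P.k1.v ξ * (2 * (τ - 1) * (z * Y) - s ^ 2 * n ^ 2) + P.k1.dv ξ * (Ξ * Y)
          + P.k2.v ξ * ((4 + 2 * τ) * (z * K) - z * (μ * z)) + P.k2.dv ξ * (Ξ * K)
          + P.l0 * (2 * (z * K) + 2 * τ * r * (z * z))
          + P.k4.v ξ * (2 * (z * Y) + (2 + 2 * τ) * s * (z * z)) + P.k4.dv ξ * s * (Ξ * z)
          + P.k5.v ξ * (z * Y + s * (z * z) + (2 * τ - 4) * (z * (μ * z)))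
          + P.k5.dv ξ * (Ξ * (μ * z)) + s * ρ * n ^ 2
          + (2 * P.D1 * (t * K - r * (t * z)) + 2 * P.W.v ξ * (t * Y) + s * P.W.dv ξ * (t * Ξ)
            + 2 * (τ - 1) * ρ * (t * z)) + ρ * (t * t)) := by
  obtain ⟨g, hg, hgs⟩ : ∃ g, 0 < g ∧ s + P.c * r = g ^ 2 :=
    ⟨√(s + P.c * r), Real.sqrt_pos.2 hσ, (Real.sq_sqrt hσ.le).symm⟩
  have hg' := hg.ne'
  obtain ⟨a, rfl⟩ : ∃ b, a = g * b := ⟨a / g, by field_simp⟩
  obtain ⟨y, rfl⟩ : ∃ b, y = g * b := ⟨y / g, by field_simp⟩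
  obtain ⟨t, rfl⟩ : ∃ b, t = g * b := ⟨t / g, by field_simp⟩
  obtain ⟨x, rfl⟩ : ∃ b, x = g ^ 2 * b := ⟨x / g ^ 2, by field_simp⟩
  obtain ⟨k, rfl⟩ : ∃ b, k = g ^ 2 * b := ⟨k / g ^ 2, by field_simp⟩
  have h1 : a ^ 2 + P.c * y ^ 2 = 1 := by
    apply mul_left_cancel₀ (pow_ne_zero 2 hg')
    rw [mul_one, ← hgs, hs, hr, mul_add, ← hr, ← hs, hgs, ← hgs, hs, hr, ← hs, ← hr, hgs]
    rw [hs, hr] at hgs
    linear_combination hgs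
  have h2 : ξ = a ^ 2 := by rw [hξ, hgs, hs]; field_simp
  have h3 : Ξ = g * P.xi a y x k n := by
    rw [hΞ, hgs, hY, hK, hz, hs, hr, xi]; field_simp
  have h4 : ρ = g ^ 2 * P.rho a y := by rw [hρ, h2, hs, hr, rho]; ring
  have e := mul_le_mul_of_nonneg_left (h u a y x k n t hu0 hu1 h1) (pow_nonneg hg.le 4)
  refine le_trans (le_of_eq ?_) (e.trans (le_of_eq ?_))
  · rw [hs, hr]; ring
  · rw [hμ, h2, h3, h4, hY, hK, hz, hs, hr]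
    simp only [q0, dr]
    ring

end Par

end Vale.Agent.P134Q
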