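import Vale.Agent.P134Q.Red

/-!
# P134Q: the pointwise inequality for the tensors
-/

open Finset

noncomputable section

namespace Vale.Agent.P134Q

variable {ι : Type} [Fintype ι] [DecidableEq ι]

namespace Ten

variable (X : Ten ι) (P : Par)

/-- `s + c r` -/
def sg : ℝ := X.s + P.c * X.r
/-- `ξ` -/
def xi : ℝ := X.s / X.sg P
/-- the gradient of `ξ` -/
def dxi (i : ι) : ℝ := 2 * P.c / X.sg P ^ 2 * (X.r * X.Y i - X.s * X.K i + X.s * X.r * X.z i)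
/-- the squared test function -/
def rho : ℝ := P.D1 * X.r + X.s * P.W.v (X.xi P)
/-- its gradient -/
def drho (i : ι) : ℝ := 2 * P.D1 * (X.K i - X.r * X.z i) + 2 * P.W.v (X.xi P) * X.Y i
  + X.s * P.W.dv (X.xi P) * X.dxi P i
/-- the field -/
def fld (i : ι) : ℝ := P.k1.v (X.xi P) * X.Y i + P.k2.v (X.xi P) * X.K i
  + P.l0 * (X.r * X.z i) + P.k4.v (X.xi P) * (X.s * X.z i) + P.k5.v (X.xi P) * X.Bz i
/-- its divergence -/
def dv : ℝ := P.k1.v (X.xi P) * (X.TT - X.s * X.s) + P.k1.dv (X.xi P) * ∑ i, X.dxi P i * X.Y i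
  + P.k2.v (X.xi P) * (X.EE + 6 * ∑ i, X.z i * X.K i - ∑ i, X.z i * X.Bz i)
  + P.k2.dv (X.xi P) * ∑ i, X.dxi P i * X.K i
  + P.l0 * (2 * ∑ i, X.z i * X.K i + 2 * (X.r * X.r))
  + P.k4.v (X.xi P) * (2 * ∑ i, X.z i * X.Y i + 4 * (X.s * X.r))
  + P.k4.dv (X.xi P) * X.s * ∑ i, X.dxi P i * X.z i
  + P.k5.v (X.xi P) * (∑ i, X.z i * X.Y i + X.r * X.s - 2 * ∑ i, X.z i * X.Bz i + X.BE)
  + P.k5.dv (X.xi P) * ∑ i, X.dxi P i * X.Bz i

omit [DecidableEq ι] in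
theorem zfld : ∑ i, X.z i * X.fld P i = P.k1.v (X.xi P) * ∑ i, X.z i * X.Y i
    + P.k2.v (X.xi P) * ∑ i, X.z i * X.K i + P.l0 * (X.r * X.r)
    + P.k4.v (X.xi P) * (X.s * X.r) + P.k5.v (X.xi P) * ∑ i, X.z i * X.Bz i := by
  have : ∀ i, X.z i * X.fld P i = P.k1.v (X.xi P) * (X.z i * X.Y i)
      + P.k2.v (X.xi P) * (X.z i * X.K i) + P.l0 * X.r * (X.z i * X.z i)
      + P.k4.v (X.xi P) * X.s * (X.z i * X.z i) + P.k5.v (X.xi P) * (X.z i * X.Bz i) :=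
    fun i => by rw [fld]; ring
  simp only [this, sum_add_distrib, ← mul_sum]
  rw [← r]; ring

omit [DecidableEq ι] in
theorem xi_mem (hc : 0 < P.c) (hσ : 0 < X.sg P) : 0 ≤ X.xi P ∧ X.xi P ≤ 1 :=
  ⟨div_nonneg X.s_nonneg hσ.le, (div_le_one hσ).2
    (le_add_of_nonneg_right (mul_nonneg hc.le X.r_nonneg))⟩

end Ten

theorem ptw (h7 : Fintype.card ι = 7) (X : Ten ι) {P : Par} {ta tb : ℝ} (hP : P.OK ta tb)
    (hσ : 0 < X.sg P) : ∃ gx gk : ℝ, 0 ≤ gx ∧ 0 ≤ gk ∧ ∑ i, X.Y i * X.Y i = X.s * gx ∧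
      ∑ i, X.K i * X.K i = X.r * gk ∧ ∀ τ, ta ≤ τ → τ ≤ tb → ∀ t : ι → ℝ,
        P.ep * (gx + gk + (X.s * X.r + X.s ^ 2 - τ * X.r ^ 2))
          ≤ X.dv P + 2 * (τ - 1) * ∑ i, X.z i * X.fld P i + X.s * X.rho P
            + ∑ i, t i * (X.drho P i + 2 * (τ - 1) * X.rho P * X.z i)
            + X.rho P * ∑ i, t i * t i := by
  obtain ⟨e⟩ := exists_EB X.hA
  obtain ⟨a, ha⟩ : ∃ a, X.s = a ^ 2 := ⟨√X.s, (Real.sq_sqrt X.s_nonneg).symm⟩
  obtain ⟨y, hy⟩ : ∃ y, X.r = y ^ 2 := ⟨√X.r, (Real.sq_sqrt X.r_nonneg).symm⟩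
  obtain ⟨n, hn, hNn, hzn⟩ := exists_dir h7 X.hN X.hz hy
  set k : ι → ℝ := e.h fun b => ∑ j, X.E b j * n j with hk
  have hY : ∀ i, e.h X.Y i = a * (e.h X.Y i / a) := fun i => by
    rcases eq_or_ne a 0 with h | h
    · have := X.Y_zero (by rw [ha, h]; ring)
      simp only [EB.h, this, mul_zero, sum_const_zero, h, zero_mul]
    · field_simp
  have hz : ∀ i, e.h X.z i = y * e.h n i := fun i => by
    rw [← e.h_smul]; congr 1; exact funext hzn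
  have hK : ∀ i, e.h X.K i = y * k i := fun i => by
    rw [hk, ← e.h_smul]
    congr 1
    funext b
    simp only [Ten.K, hzn, mul_sum]
    exact sum_congr rfl fun j _ => by ring
  have hμ : ∀ i, e.lam i ^ 2 = X.s * (e.lam i ^ 2 / X.s) := fun i => by
    rcases eq_or_ne X.s 0 with h | h
    · have := lam_le h7 X e i
      rw [h] at this ⊢
      nlinarith [sq_nonneg (e.lam i)]
    · field_simp
  have hu : ∀ i, e.lam i ^ 2 / X.s ≤ 5 / 6 := fun i =>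
    div_le_of_le_mul₀ X.s_nonneg (by norm_num) (by linarith [lam_le h7 X e i])
  have hB : ∀ i, e.h X.Bz i = e.lam i ^ 2 * e.h X.z i := fun i => e.h_B X.hA X.z i
  have hΞ : ∀ i, e.h (X.dxi P) i = 2 * P.c / (X.s + P.c * X.r) ^ 2
      * (X.r * e.h X.Y i - X.s * e.h X.K i + X.s * X.r * e.h X.z i) := fun i => by
    have : X.dxi P = fun b => 2 * P.c / X.sg P ^ 2 * X.r * X.Y b
        + - (2 * P.c / X.sg P ^ 2 * X.s) * X.K b + 2 * P.c / X.sg P ^ 2 * X.s * X.r * X.z b :=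
      funext fun b => by rw [Ten.dxi]; ring
    rw [this, e.h_lin, Ten.sg]; ring
  obtain ⟨x0, x1⟩ := X.xi_mem P hP.hc hσ
  refine ⟨∑ i, (e.h X.Y i / a) ^ 2, ∑ i, k i ^ 2, sum_nonneg fun _ _ => sq_nonneg _,
    sum_nonneg fun _ _ => sq_nonneg _, ?_, ?_, fun τ h1 h2 t => ?_⟩
  · rw [e.par, mul_sum]
    exact sum_congr rfl fun i _ => by rw [ha, ← mul_pow, ← hY, sq]
  · rw [e.par, mul_sum]
    exact sum_congr rfl fun i _ => by rw [hy, hK]; ring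
  have key := sum_le_sum fun i (_ : i ∈ univ) => (hP.psd h1 h2).hom (t := e.h t i)
    (ξ := X.xi P) (ρ := X.rho P) (div_nonneg (sq_nonneg (e.lam i)) X.s_nonneg) (hu i) ha hy hσ rfl
    (hY i) (hK i) (hz i) (hμ i) rfl (hΞ i)
  have hn2 : ∑ i, e.h n i ^ 2 = 1 := by simp only [sq, ← e.par, hn]
  have k1 := mul_le_mul_of_nonneg_left (kato_sum h7 X e ha) (hP.h1 _ x0 x1)
  have k2 := relax_sum h7 X e hn hNn (c := P.k5.v (X.xi P)) (hP.h2 _ x0 x1)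
  rw [sum_add_distrib, sum_add_distrib, ← mul_sum, ← mul_sum] at key
  simp only [← hB, sum_add_distrib, sum_sub_distrib, ← mul_sum, ← e.par, hn2] at key
  have ht : ∑ i, t i * (X.drho P i + 2 * (τ - 1) * X.rho P * X.z i)
      = 2 * P.D1 * (∑ i, t i * X.K i - X.r * ∑ i, t i * X.z i)
        + 2 * P.W.v (X.xi P) * ∑ i, t i * X.Y i
        + X.s * P.W.dv (X.xi P) * ∑ i, t i * X.dxi P i
        + 2 * (τ - 1) * X.rho P * ∑ i, t i * X.z i := by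
    simp only [mul_sub, mul_sum, ← sum_add_distrib, ← sum_sub_distrib]
    exact sum_congr rfl fun i _ => by rw [Ten.drho]; ring
  simp only [sum_add_distrib, sum_sub_distrib, ← mul_sum, hn2, ← hk] at k2
  rw [ht, Ten.zfld, Ten.dv]
  rw [show ∑ i, X.z i * X.z i = X.r from rfl] at key
  linarith

end Vale.Agent.P134Q
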