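import Vale.Agent.P134Q.Eig
import Vale.Agent.P134Q.Hom

/-!
# P134Q: from the scalar inequality to the tensor inequality
-/

open Finset

noncomputable section

namespace Vale.Agent.P134Q

variable {ι : Type} [Fintype ι] [DecidableEq ι]

theorem exists_dir (h7 : Fintype.card ι = 7) {N z : ι → ℝ} (hN : ∑ i, N i * N i = 1)
    (hz : ∑ i, N i * z i = 0) {y : ℝ} (hy : ∑ i, z i * z i = y ^ 2) :
    ∃ n : ι → ℝ, ∑ i, n i * n i = 1 ∧ ∑ i, N i * n i = 0 ∧ ∀ i, z i = y * n i := by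
  rcases eq_or_ne y 0 with h | h
  · have h0 : ∀ i, z i = 0 := fun i => by
      rw [h, sq, mul_zero, sum_eq_zero_iff_of_nonneg fun i _ => mul_self_nonneg _] at hy
      exact mul_self_eq_zero.1 (hy i (mem_univ i))
    have h6 : ∑ i, P134I.proj N i i = (6 : ℕ) := P134I.proj_tr hN h7
    obtain ⟨i, hi⟩ : ∃ i, 0 < P134I.proj N i i := by
      by_contra hc
      push Not at hc
      have := sum_nonpos fun i (_ : i ∈ univ) => hc i
      rw [h6] at this
      norm_num at this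
    obtain ⟨g, hg, hgs⟩ : ∃ g, 0 < g ∧ P134I.proj N i i = g ^ 2 :=
      ⟨√(P134I.proj N i i), Real.sqrt_pos.2 hi, (Real.sq_sqrt hi.le).symm⟩
    refine ⟨fun j => g⁻¹ * P134I.proj N j i, ?_, ?_, fun j => by rw [h0, h, zero_mul]⟩
    · have : ∀ j, g⁻¹ * P134I.proj N j i * (g⁻¹ * P134I.proj N j i)
          = g⁻¹ ^ 2 * (P134I.proj N i j * P134I.proj N j i) := fun j => by
        rw [P134I.proj_symm N i j]; ring
      simp only [this, ← mul_sum]
      rw [P134I.proj_mul, P134I.proj_N hN, hgs]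
      field_simp
      ring
    · have : ∀ j, N j * (g⁻¹ * P134I.proj N j i) = g⁻¹ * (N j * P134I.proj N j i) :=
        fun j => by ring
      simp only [this, ← mul_sum, P134I.proj_N hN, mul_zero]
  · refine ⟨fun i => y⁻¹ * z i, ?_, ?_, fun i => by field_simp⟩
    · have : ∀ j, y⁻¹ * z j * (y⁻¹ * z j) = y⁻¹ ^ 2 * (z j * z j) := fun j => by ring
      simp only [this, ← mul_sum, hy]
      field_simp
    · have : ∀ j, N j * (y⁻¹ * z j) = y⁻¹ * (N j * z j) := fun j => by ring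
      simp only [this, ← mul_sum, hz, mul_zero]

/-- the tensors at a point -/
structure Ten (ι : Type) [Fintype ι] where
  N : ι → ℝ
  z : ι → ℝ
  A : ι → ι → ℝ
  E : ι → ι → ℝ
  T : ι → ι → ι → ℝ
  hN : ∑ i, N i * N i = 1
  hz : ∑ i, N i * z i = 0
  hA : ∀ i j, A i j = A j i
  AN : ∀ i, ∑ j, A i j * N j = 0
  trA : ∑ i, A i i = 0
  hE : ∀ i j, E i j = E j i
  EN : ∀ i, ∑ j, E i j * N j = 0
  trE : ∑ i, E i i = 0
  T1 : ∀ k i j, T k i j = T k j i
  T2 : ∀ k i j, T k i j = T i k j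
  TN : ∀ k i, ∑ j, T k i j * N j = 0
  trT : ∀ k, ∑ i, T k i i = 0

namespace Ten

variable (X : Ten ι)

/-- `|A|^2` -/
def s : ℝ := ∑ i, ∑ j, X.A i j * X.A i j
/-- `|z|^2` -/
def r : ℝ := ∑ i, X.z i * X.z i
/-- `A^2` -/
def B (i j : ι) : ℝ := ∑ l, X.A i l * X.A l j
/-- half the gradient of `s` -/
def Y (k : ι) : ℝ := ∑ i, ∑ j, X.A i j * X.T k i j
/-- `E z` -/
def K (i : ι) : ℝ := ∑ j, X.E i j * X.z j
/-- `A^2 z` -/
def Bz (i : ι) : ℝ := ∑ j, X.B i j * X.z j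
/-- `|T|^2` -/
def TT : ℝ := ∑ k, ∑ i, ∑ j, X.T k i j * X.T k i j
/-- `|E|^2` -/
def EE : ℝ := ∑ i, ∑ j, X.E i j * X.E i j
/-- the pairing of `A^2` and `E` -/
def BE : ℝ := ∑ i, ∑ j, X.B i j * X.E i j

omit [DecidableEq ι]

theorem s_nonneg : 0 ≤ X.s := sum_nonneg fun _ _ => sum_nonneg fun _ _ => mul_self_nonneg _

theorem r_nonneg : 0 ≤ X.r := sum_nonneg fun _ _ => mul_self_nonneg _

theorem TT_nonneg : 0 ≤ X.TT :=
  sum_nonneg fun _ _ => sum_nonneg fun _ _ => sum_nonneg fun _ _ => mul_self_nonneg _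

theorem EE_nonneg : 0 ≤ X.EE := sum_nonneg fun _ _ => sum_nonneg fun _ _ => mul_self_nonneg _

theorem NA (k : ι) : ∑ j, X.N j * X.A j k = 0 := by
  rw [← X.AN k]
  exact sum_congr rfl fun j _ => by rw [X.hA j k, mul_comm]

theorem NE (k : ι) : ∑ j, X.N j * X.E j k = 0 := by
  rw [← X.EN k]
  exact sum_congr rfl fun j _ => by rw [X.hE j k, mul_comm]

theorem NT (j k : ι) : ∑ i, X.N i * X.T i j k = 0 := by
  rw [← X.TN j k]
  exact sum_congr rfl fun i _ => by rw [X.T2 i j k, X.T1 j i k, mul_comm]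

theorem B_sym (i j : ι) : X.B i j = X.B j i :=
  sum_congr rfl fun l _ => by rw [X.hA i l, X.hA l j, mul_comm]

theorem NB (k : ι) : ∑ j, X.N j * X.B j k = 0 := by
  simp only [B, mul_sum]
  rw [sum_comm]
  refine sum_eq_zero fun l _ => ?_
  simp only [← mul_assoc]
  rw [← sum_mul, NA, zero_mul]

theorem trB : ∑ i, X.B i i = X.s :=
  sum_congr rfl fun i _ => sum_congr rfl fun l _ => by rw [X.hA l i]

theorem Y_zero (h : X.s = 0) (k : ι) : X.Y k = 0 := by
  rw [s, sum_eq_zero_iff_of_nonneg fun i _ => sum_nonneg fun j _ => mul_self_nonneg _] at h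
  refine sum_eq_zero fun i hi => sum_eq_zero fun j hj => ?_
  have := (sum_eq_zero_iff_of_nonneg fun j _ => mul_self_nonneg _).1 (h i hi) j hj
  rw [mul_self_eq_zero.1 this, zero_mul]

end Ten

variable (h7 : Fintype.card ι = 7) (X : Ten ι) (e : EB X.A)

include h7

theorem lam_le (i : ι) : 6 * e.lam i ^ 2 ≤ 5 * X.s := by
  have := P134I.eig_le (m := 6) h7 (by norm_num) X.hN X.hA X.NA X.trA fun a => e.O a i
  have h1 : ∀ a, e.lam i * e.O a i * (e.lam i * e.O a i) = e.lam i ^ 2 * (e.O a i * e.O a i) :=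
    fun a => by ring
  simp only [e.ev, h1, ← mul_sum, e.col] at this
  norm_num at this
  exact this

include e in
theorem sqB_le : ∑ i, ∑ j, X.B i j * X.B i j ≤ 7 / 10 * X.s ^ 2 := by
  have := quart h7 e.lam (e.h X.N) X.s (by rw [← e.tr, X.trA]) e.sq2.symm
    (by rw [← e.par, X.hN]) (fun i => by
      rw [← e.h_A X.hA]
      simp only [X.AN, EB.h, mul_zero, sum_const_zero]) (lam_le h7 X e)
  rwa [← e.sq4 X.hA] at this

theorem kato_sum {a : ℝ} (ha : X.s = a ^ 2) :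
    ∑ i, 6 * (e.h X.Y i / a) ^ 2 / (2 + 3 * (e.lam i ^ 2 / X.s)) ≤ X.TT := by
  rcases eq_or_ne a 0 with h | h
  · simpa [h] using X.TT_nonneg
  set w : ι → ℝ := fun i => 6 * (e.h X.Y i / a) / (2 + 3 * (e.lam i ^ 2 / X.s)) / a with hw
  have := P134I.kato (m := 6) h7 X.hN X.hA X.NA X.trA X.T2 X.T1 X.NT X.trT
    fun b => ∑ j, e.O b j * w j
  refine le_trans (le_of_eq ?_) this
  rw [e.par _ fun i => ∑ j, ∑ k, X.A j k * X.T i j k, e.par fun b => ∑ j, e.O b j * w j,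
    e.par fun i => ∑ j, X.A i j * ∑ k, e.O j k * w k]
  simp only [e.h_A X.hA, e.h_inv]
  change _ = 2 * ∑ i, w i * e.h X.Y i - (X.s * (∑ i, w i * w i) / 3 + _)
  rw [mul_sum, mul_sum, mul_sum, sum_div, ← sum_add_distrib, ← sum_sub_distrib]
  refine sum_congr rfl fun i _ => ?_
  have : 2 * a ^ 2 + 3 * e.lam i ^ 2 ≠ 0 := by positivity
  have h2 : 2 + 3 * (e.lam i ^ 2 / a ^ 2) = (2 * a ^ 2 + 3 * e.lam i ^ 2) / a ^ 2 := by
    field_simp
  simp only [hw, ha, h2]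
  push_cast
  field_simp
  ring

theorem relax_sum {n : ι → ℝ} (hn : ∑ i, n i * n i = 1) (hNn : ∑ i, X.N i * n i = 0) {b c : ℝ}
    (hb : 0 < b) : ∑ i, (b * (6 / 5 * e.h (fun a => ∑ j, X.E a j * n j) i ^ 2)
      + c * (6 / 5 * ((e.lam i ^ 2 - X.s / 6) * e.h n i * e.h (fun a => ∑ j, X.E a j * n j) i))
      + c ^ 2 / (4 * b) * (6 / 5 * ((e.lam i ^ 2 - X.s / 6) * e.h n i) ^ 2
        - 8 / 15 * X.s ^ 2 * e.h n i ^ 2)) ≤ b * X.EE + c * X.BE := by
  obtain ⟨κ, rfl⟩ : ∃ κ, c = 2 * b * κ := ⟨c / (2 * b), by field_simp⟩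
  set S : ι → ι → ℝ := fun i j => X.E i j + κ * X.B i j - κ * X.s / 6 * P134I.proj X.N i j
    with hS
  have h6 : ∑ i, P134I.proj X.N i i = (6 : ℕ) := P134I.proj_tr X.hN h7
  have h1 := P134I.eig_le (m := 6) h7 (by norm_num) X.hN (S := S)
    (fun i j => by simp only [hS]; rw [X.hE i j, X.B_sym i j, P134I.proj_symm])
    (fun k => by
      have : ∀ j, X.N j * S j k = X.N j * X.E j k + κ * (X.N j * X.B j k)
          - κ * X.s / 6 * (X.N j * P134I.proj X.N j k) := fun j => by simp only [hS]; ring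
      simp only [this, sum_add_distrib, sum_sub_distrib, ← mul_sum, X.NE, X.NB,
        P134I.proj_N X.hN]
      ring)
    (by
      simp only [hS, sum_add_distrib, sum_sub_distrib, ← mul_sum, X.trE, X.trB, h6]
      push_cast
      ring) n
  have h2 : ∀ i, e.h (fun a => ∑ j, S a j * n j) i = e.h (fun a => ∑ j, X.E a j * n j) i
      + κ * ((e.lam i ^ 2 - X.s / 6) * e.h n i) := fun i => by
    have : ∀ a, ∑ j, S a j * n j = 1 * ∑ j, X.E a j * n j + κ * ∑ j, X.B a j * n j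
        + - (κ * X.s / 6) * n a := fun a => by
      have : ∀ j, S a j * n j = X.E a j * n j + κ * (X.B a j * n j)
          - κ * X.s / 6 * (P134I.proj X.N a j * n j) := fun j => by simp only [hS]; ring
      simp only [this, sum_add_distrib, sum_sub_distrib, ← mul_sum, P134I.proj_mul, hNn]
      ring
    simp only [this, e.h_lin, Ten.B, e.h_B X.hA]
    ring
  have h3 : ∑ i, ∑ j, S i j * S i j = X.EE + 2 * κ * X.BE
      + κ ^ 2 * (∑ i, ∑ j, X.B i j * X.B i j - X.s ^ 2 / 6) := by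
    have p1 := P134I.proj_pair X.N X.E fun j => by simp only [X.hE j]; exact X.NE j
    have p2 := P134I.proj_pair X.N X.B fun j => by simp only [X.B_sym j]; exact X.NB j
    have p3 : _ = ((6 : ℕ) : ℝ) := P134I.proj_sq X.hN h7
    have : ∀ i j, S i j * S i j = X.E i j * X.E i j + 2 * κ * (X.B i j * X.E i j)
        + κ ^ 2 * (X.B i j * X.B i j) - κ * X.s / 3 * (P134I.proj X.N i j * X.E i j)
        - κ ^ 2 * X.s / 3 * (P134I.proj X.N i j * X.B i j)
        + (κ * X.s / 6) ^ 2 * (P134I.proj X.N i j * P134I.proj X.N i j) := fun i j => by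
      simp only [hS]; ring
    simp only [this, sum_add_distrib, sum_sub_distrib, ← mul_sum, p1, p2, p3, X.trE, X.trB,
      Ten.EE, Ten.BE]
    push_cast
    ring
  rw [e.par fun a => ∑ j, S a j * n j, h3, hn] at h1
  have h4 : ∀ i, b * (6 / 5 * e.h (fun a => ∑ j, X.E a j * n j) i ^ 2)
      + 2 * b * κ * (6 / 5 * ((e.lam i ^ 2 - X.s / 6) * e.h n i
        * e.h (fun a => ∑ j, X.E a j * n j) i))
      + (2 * b * κ) ^ 2 / (4 * b) * (6 / 5 * ((e.lam i ^ 2 - X.s / 6) * e.h n i) ^ 2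
        - 8 / 15 * X.s ^ 2 * e.h n i ^ 2)
      = 6 / 5 * b * (e.h (fun a => ∑ j, S a j * n j) i * e.h (fun a => ∑ j, S a j * n j) i)
        - 8 / 15 * b * κ ^ 2 * X.s ^ 2 * (e.h n i * e.h n i) := fun i => by
    rw [h2]; field_simp; ring
  simp only [h4, sum_sub_distrib, ← mul_sum, ← e.par n n, hn]
  have h5 := mul_le_mul_of_nonneg_left (sqB_le h7 X e) (sq_nonneg κ)
  push_cast at h1
  nlinarith [mul_le_mul_of_nonneg_left h1 hb.le, mul_le_mul_of_nonneg_left h5 hb.le]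

end Vale.Agent.P134Q
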