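import Vale.Agent.P134Q.Ptw
import Vale.Agent.P134L.Defs

/-!
# P134Q: the fields on a leaf are given by the tensors at each point
-/

open Finset Set

noncomputable section

namespace Vale.Agent.P134Q

open P134L

/-- **DIV**: the weight and the field of a family of multipliers, without the exponential factor -/
def DIV : Prop := ∀ (M : Type) [MetricSpace M] [MeasurableSpace M] (G : Geo 6 M) (U : Set M)
  (τ : M → ℝ) (P : Par), Core G → Rule G → IsOpen U → (∀ q ∈ U, G.Sm τ q) →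
  (∀ q ∈ U, G.Lap τ q = 4 * G.Gam τ τ q) → 0 < P.c →
  ∃ (ρ : M → ℝ) (F : Fin 7 → M → ℝ) (Λ : M → ℝ), ContinuousOn Λ U ∧ ∀ q ∈ U, 0 < G.sg τ q →
    G.Sm ρ q ∧ (∀ i, G.Sm (F i) q) ∧ ∃ X : Ten (Fin 7), X.s = G.A2 q ∧ X.r = G.Gam τ τ q ∧
      (∀ i, X.z i = G.δ i τ q) ∧ ρ q = X.rho P ∧ (∀ i, G.δ i ρ q = X.drho P i) ∧
      (∀ i, F i q = X.fld P i) ∧ G.Div F q = X.dv P ∧ X.TT + X.EE ≤ Λ q

end Vale.Agent.P134Q
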